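import Vale.Agent.P218UV.Asm
import Vale.Agent.P218UO.Sep

/-! The differential inequality for the separation functional. -/

open MeasureTheory Set Filter Topology Metric

namespace Vale.Agent.P218UV

open Vale.Agent.P218UA Vale.Agent.P218UO

theorem core (hC : Calc) (hL : Cell) (hD : CylDensStmt) (hQ : QSStmt) : CoreStmt := by
  intro A hA
  obtain ⟨c₁, h1, h2, h3⟩ := hQ A hA
  obtain ⟨σ₀, h4, h5⟩ := h3 (c₁ / 10) (by positivity)
  have h6 : 0 < min σ₀ (1 / 10 ^ 5 / A ^ 2) := by positivity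
  obtain ⟨δ, h7, h8⟩ := h5 _ h6 (min_le_left _ _)
  have h9 : min σ₀ (1 / 10 ^ 5 / A ^ 2) * A ^ 2 ≤ 1 / 10 ^ 5 :=
    (le_div_iff₀ (by positivity)).1 (min_le_right _ _)
  generalize min σ₀ (1 / 10 ^ 5 / A ^ 2) = σ at h6 h8 h9
  have hσ : σ ≤ 1 := by nlinarith [mul_le_mul_of_nonneg_left (show 1 ≤ A ^ 2 by nlinarith) h6.le]
  have hθ : 0 < c₁ / 10 := by positivity
  refine ⟨c₁ / 10, σ, δ, c₁ / 2, (c₁ / 2)⁻¹ + 204800 * A ^ 2 * Real.exp (2 * (20 * A - 13 + 3)),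
    hθ, by linarith, h6, hσ, h7, by positivity, by linarith, by positivity, fun w I hw =>
    ⟨isOpen_Om hC hw.toIsFlow h6, fun K => lower hD hw h6 hσ hθ (by linarith),
      asm hC hw.toIsFlow (by positivity) (by positivity) (fun _ _ _ _ => P218UM.Om_up)
        (isOpen_Om hC hw.toIsFlow h6) (fun t _ x y a1 a2 a3 η hη => ?_)
        fun t _ x y a1 a2 a3 e₁ e₂ he => ?_⟩⟩
  · refine cl (p := (t, x)) hC hL hw (h8 w I hw) h6 hσ hθ (by linarith) le_rfl a1 a2 ?_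
      (by linarith)
    exact Tendsto.frequently (f := fun a : ℝ × E3 × ℝ => (((a.1, a.2.1), a.2.2) : ST × ℝ))
      (Continuous.tendsto (by fun_prop) (t, x, y)) a3
  · obtain ⟨P, hP⟩ := exists_bar (p := (t, x)) hC hL hD hw (h8 w I hw) h6 h9 hθ le_rfl h2 a1 a2 a3
    exact ⟨P, hP.cd, hP.eq, hP.above, (by ring : 2 * (c₁ / 2) = c₁).symm ▸ hP.sup e₁ e₂ he⟩

end Vale.Agent.P218UV
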