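import Vale.Agent.P218UZ.All
import Vale.Agent.P218UV.Core
import Vale.Agent.P218UI.Weight
import Vale.Agent.P218UD.Dens
import Vale.Agent.P218UM.M1
import Vale.Agent.P218TB.Bridge

/-! The unconditional chain: multiplicity one, the smooth limit and its ends. -/

open MeasureTheory Set Filter Topology
open scoped Manifold ContDiff Pointwise

namespace Vale.Agent.P218UV

open Vale.Agent.P218UA Vale.Agent.P218UZ

theorem coreA : CoreStmt := core calcA cellA cylA qsA

theorem m1A : M1Stmt := P218UM.m1 calcA monoA tanA coreA P218UI.weight cellA flatA cylA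

theorem densA : DensStmt :=
  P218UD.dens calcA monoA tanA cylA flatA regPtA cellA coreA P218UI.weight

theorem endsThm : EndsStmt := endsA m1A densA

theorem shapeThm : ShapeStmt := shapeA m1A densA

theorem final_of_main (hmain : P218ST.Main) {M : Type*} [TopologicalSpace M]
    [ChartedSpace P218UZ.E2 M] [IsManifold (𝓡 2) ∞ M] [T2Space M] [CompactSpace M]
    [ConnectedSpace M] (F : ℝ → M → P218UZ.E3) (T : ℝ) (hT0 : 0 < T) (hF : IsSmoothMCF F T)
    (h0 : Function.Injective (F 0)) (μ : ℝ → Measure P218UZ.E3)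
    (hμ : ∀ t ∈ Ico 0 T, μ t = (μH[2] : Measure P218UZ.E3).restrict (range (F t)))
    (x₀ : P218UZ.E3) : P218.TangentFlowUnique 2 μ x₀ T ∧
      ∃ (S : Set P218UZ.E3) (Φ : P218UZ.E3 → ℝ), P218ST.IsSmoothShrinker S Φ ∧
        P218GA.HasCylConeEnds S ∧ ∀ s < 0, ∀ φ : P218UZ.E3 → ℝ, Continuous φ →
          HasCompactSupport φ → Tendsto (fun lam : ℝ => ∫ x, φ x ∂(P218.rescaled 2 μ x₀ T lam s))
            atTop (𝓝 (∫ x in √(-s) • S, φ x ∂μH[2])) :=
  final calcA monoA tanA lgbA shapeThm brakkeA (P218TB.mainSmooth_of_main hmain) F T hT0 hF h0 μ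
    hμ x₀

end Vale.Agent.P218UV
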