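import Vale.Agent.P218UV.Soft

/-! The approximation theorem: barriers from below give smooth approximate subsolutions. -/

open Set Filter Topology Metric

namespace Vale.Agent.P218UV

variable {X : Type*} [NormedAddCommGroup X] [NormedSpace ℝ X] [FiniteDimensional ℝ X]
  {ι : Type*} [Fintype ι]

theorem exists_local {v : X} {σ : ι → X → X} {K : Set X} (hK : IsCompact K)
    (hσ : ∀ i, ContinuousOn (σ i) K) {G F : X → ℝ} {m : ℝ} (hm : ∀ q ∈ K, m ≤ G q) {p : X}
    (hp : p ∈ K) (hG : UpperSemicontinuousWithinAt G K p) (hF : LowerSemicontinuousWithinAt F K p)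
    {b : X → ℝ} (hb : ContDiffAt ℝ 2 b p) (hbp : b p = G p) (hbG : ∀ᶠ q in 𝓝[K] p, b q ≤ G q)
    (hL : Lop v σ b p ≤ F p) {ε : ℝ} (hε : 0 < ε) :
    ∃ (g : X → ℝ) (γ : ℝ) (U : Set X), ContDiff ℝ 2 g ∧ 0 < γ ∧ U ∈ 𝓝 p ∧
      (∀ q ∈ K, g q ≤ G q + ε) ∧ (∀ q ∈ K ∩ U, G q ≤ g q) ∧
      ∀ q ∈ K, Lop v σ g q ≤ F q + ε ∨ g q ≤ G q - γ := by
  have h1 : ∀ᶠ q in 𝓝[K] p, Lop v σ b q < Lop v σ b p + ε / 4 :=
    (continuousWithinAt_Lop hb fun i => hσ i p hp).eventually (gt_mem_nhds (by linarith))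
  have h2 : ∀ᶠ q in 𝓝[K] p, F p - ε / 4 < F q := hF _ (by linarith)
  have h3 : ∀ᶠ q in 𝓝 p, ContDiffAt ℝ 2 b q := hb.eventually (by simp)
  have h4 := (eventually_nhdsWithin_iff.1 (hbG.and (h1.and h2))).and h3
  obtain ⟨r, hr, hball⟩ := Metric.eventually_nhds_iff.1 h4
  let χ : ContDiffBump p := ⟨r / 4, r / 2, by positivity, by linarith⟩
  let ψ : ContDiffBump p := ⟨5 * r / 8, 3 * r / 4, by positivity, by linarith⟩
  have hχ : ContDiff ℝ 2 χ := χ.contDiff
  have hψ : ContDiff ℝ 2 ψ := ψ.contDiff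
  obtain ⟨M, hM⟩ := hK.exists_bound_of_continuousOn (f := Lop v σ χ)
    fun q hq => continuousWithinAt_Lop hχ.contDiffAt fun i => hσ i q hq
  have hM0 : 0 ≤ M := (norm_nonneg _).trans (hM p hp)
  set s := min (min ε 1) (ε / (2 * (M + 1))) with hs
  have hs0 : 0 < s := by positivity
  have hs1 : s ≤ ε := (min_le_left _ _).trans (min_le_left _ _)
  have hs2 : s ≤ 1 := (min_le_left _ _).trans (min_le_right _ _)
  have hs3 : s * M ≤ ε / 2 := by
    have : s * (2 * (M + 1)) ≤ ε := (le_div_iff₀ (by positivity)).1 (min_le_right _ _)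
    nlinarith
  let b' : X → ℝ := fun q => b q + s * χ q + -(s / 2)
  let g : X → ℝ := fun q => ψ q * b' q + (1 - ψ q) * (m - 1)
  have hψ0 : ∀ q, 3 * r / 4 ≤ dist q p → ψ q = 0 := fun q hq => ψ.zero_of_le_dist hq
  have hcomb : ∀ q ∈ K, ∀ c : ℝ, -1 ≤ c → (dist q p < r → b' q ≤ G q + c) → g q ≤ G q + c := by
    intro q hq c hc h
    have e1 : m - 1 ≤ G q + c := by linarith [hm q hq]
    by_cases hd : dist q p < r
    · have e2 := h hd
      have e3 : 0 ≤ ψ q := ψ.nonneg
      have e4 : ψ q ≤ 1 := ψ.le_one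
      simp only [g]
      nlinarith
    · simp only [g, hψ0 q (by linarith [not_lt.1 hd])]
      linarith
  refine ⟨g, s / 2, {q | dist q p < r / 4 ∧ (q ∈ K → G q < G p + s / 4) ∧ b p - s / 4 < b q},
    ?_, by positivity, ?_, ?_, ?_, ?_⟩
  · rw [contDiff_iff_contDiffAt]
    intro q
    by_cases hd : dist q p < r
    · exact (hψ.contDiffAt.mul (((hball hd).2.add (contDiffAt_const.mul hχ.contDiffAt)).add
        contDiffAt_const)).add ((contDiffAt_const.sub hψ.contDiffAt).mul contDiffAt_const)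
    · have e1 : ∀ᶠ q' in 𝓝 q, 3 * r / 4 < dist q' p :=
        (continuous_id.dist continuous_const).continuousAt.eventually
          (lt_mem_nhds (show 3 * r / 4 < dist q p by linarith [not_lt.1 hd]))
      refine (contDiffAt_const (c := m - 1)).congr_of_eventuallyEq ?_
      filter_upwards [e1] with q' hq'
      simp [g, hψ0 q' hq'.le]
  · refine Filter.Eventually.and (ball_mem_nhds p (by positivity)) (Filter.Eventually.and ?_ ?_)
    · exact eventually_nhdsWithin_iff.1 (hG _ (by linarith))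
    · exact hb.continuousAt.eventually (lt_mem_nhds (by linarith))
  · intro q hq
    refine hcomb q hq ε (by linarith) fun hd => ?_
    have e1 := ((hball hd).1 hq).1
    have e2 : χ q ≤ 1 := χ.le_one
    simp only [b']
    nlinarith
  · rintro q ⟨hq, hd, e1, e2⟩
    have e3 : χ q = 1 := χ.one_of_mem_closedBall (mem_closedBall.2 hd.le)
    have e4 : ψ q = 1 := ψ.one_of_mem_closedBall (mem_closedBall.2 (by
      change dist q p ≤ 5 * r / 8
      linarith))
    have e5 := e1 hq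
    simp only [g, b', e3, e4]
    linarith
  · intro q hq
    by_cases hd : dist q p < 5 * r / 8
    · left
      have e1 : g =ᶠ[𝓝 q] b' := by
        have e2 : ∀ᶠ q' in 𝓝 q, dist q' p < 5 * r / 8 :=
          (continuous_id.dist continuous_const).continuousAt.eventually (gt_mem_nhds hd)
        filter_upwards [e2] with q' hq'
        have e4 : ψ q' = 1 := ψ.one_of_mem_closedBall (mem_closedBall.2 hq'.le)
        simp [g, e4]
      have hd' : dist q p < r := by linarith
      rw [Lop_congr e1, Lop_add_mul (hball hd').2 hχ.contDiffAt]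
      obtain ⟨_, e2, e3⟩ := (hball hd').1 hq
      have e4 : Lop v σ χ q ≤ M := (le_abs_self _).trans (hM q hq)
      have e5 : s * Lop v σ χ q ≤ s * M := mul_le_mul_of_nonneg_left e4 hs0.le
      linarith
    · right
      rw [sub_eq_add_neg]
      refine hcomb q hq _ (by linarith) fun hd' => ?_
      have e1 := ((hball hd').1 hq).1
      have e2 : χ q = 0 := χ.zero_of_le_dist (by
        change r / 2 ≤ dist q p
        linarith [not_lt.1 hd])
      simp only [b', e2]
      linarith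

/-- the approximation theorem -/
theorem exists_smooth_approx {v : X} {σ : ι → X → X} {K : Set X} (hK : IsCompact K)
    (hσ : ∀ i, ContinuousOn (σ i) K) {G F : X → ℝ} {B : ℝ} (hB : ∀ q ∈ K, -B ≤ G q ∧ -B ≤ F q)
    (hG : UpperSemicontinuousOn G K) (hF : LowerSemicontinuousOn F K)
    (hb : ∀ p ∈ K, ∃ b : X → ℝ, ContDiffAt ℝ 2 b p ∧ b p = G p ∧ (∀ᶠ q in 𝓝[K] p, b q ≤ G q) ∧
      Lop v σ b p ≤ F p) {ε : ℝ} (hε : 0 < ε) :
    ∃ g : X → ℝ, ContDiff ℝ 2 g ∧ ∀ q ∈ K, G q ≤ g q ∧ g q ≤ G q + ε ∧ Lop v σ g q ≤ F q + ε := by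
  classical
  rcases K.eq_empty_or_nonempty with rfl | ⟨p₀, hp₀⟩
  · exact ⟨0, contDiff_const, by simp⟩
  have h : ∀ p : K, ∃ (g : X → ℝ) (γ : ℝ) (U : Set X), ContDiff ℝ 2 g ∧ 0 < γ ∧ U ∈ 𝓝 p.1 ∧
      (∀ q ∈ K, g q ≤ G q + ε / 2) ∧ (∀ q ∈ K ∩ U, G q ≤ g q) ∧
      ∀ q ∈ K, Lop v σ g q ≤ F q + ε / 2 ∨ g q ≤ G q - γ := by
    intro p
    obtain ⟨b, h1, h2, h3, h4⟩ := hb p p.2
    exact exists_local hK hσ (fun q hq => (hB q hq).1) p.2 (hG p p.2) (hF p p.2) h1 h2 h3 h4
      (half_pos hε)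
  choose g γ U hg hγ hU h1 h2 h3 using h
  obtain ⟨s, hs⟩ := hK.elim_nhds_subcover' (fun p hp => U ⟨p, hp⟩) fun p hp => hU ⟨p, hp⟩
  have hcov : ∀ q ∈ K, ∃ j ∈ s, G q ≤ g j q := by
    intro q hq
    obtain ⟨j, hj, hq'⟩ := mem_iUnion₂.1 (hs hq)
    exact ⟨j, hj, h2 j q ⟨hq, hq'⟩⟩
  have hne : s.Nonempty := let ⟨j, hj, _⟩ := hcov p₀ hp₀; ⟨j, hj⟩
  have hbd : ∀ j : K, ∃ M, ∀ q ∈ K, ‖Lop v σ (g j) q‖ ≤ M := fun j =>
    hK.exists_bound_of_continuousOn fun q hq =>
      continuousWithinAt_Lop (hg j).contDiffAt fun i => hσ i q hq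
  choose M hM using hbd
  have hlim : Tendsto (fun β : ℝ => ∑ j ∈ s, Real.exp (-(β * γ j)) * (M j + |B|)) atTop
      (𝓝 (∑ j ∈ s, 0 * (M j + |B|))) :=
    tendsto_finsetSum _ fun j _ => (Real.tendsto_exp_atBot.comp
      (tendsto_neg_atTop_atBot.comp (tendsto_id.atTop_mul_const (hγ j)))).mul_const _
  simp only [zero_mul, Finset.sum_const_zero] at hlim
  have hlim2 : Tendsto (fun β : ℝ => (s.card : ℝ) / β) atTop (𝓝 0) :=
    tendsto_const_nhds.div_atTop tendsto_id
  obtain ⟨β, hβ1, hβ2, hβ⟩ := ((hlim.eventually (gt_mem_nhds (half_pos hε))).and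
    ((hlim2.eventually (gt_mem_nhds (half_pos hε))).and (eventually_gt_atTop 0))).exists
  refine ⟨smax s g β, contDiff_smax hne fun j _ => hg j, fun q hq => ⟨?_, ?_, ?_⟩⟩
  · obtain ⟨j, hj, e⟩ := hcov q hq
    exact e.trans (le_smax hβ hj q)
  · have := smax_le (g := g) hne hβ (p := q) fun j _ => h1 j q hq
    linarith
  · refine (Lop_smax hne (fun j _ => hg j) hβ v σ q).trans ?_
    have hS := sexp_pos (g := g) (β := β) hne q
    rw [div_le_iff₀ hS]
    obtain ⟨j₀, hj₀, e₀⟩ := hcov q hq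
    have e1 : Real.exp (β * G q) ≤ sexp s g β q :=
      (Real.exp_le_exp.2 (mul_le_mul_of_nonneg_left e₀ hβ.le)).trans
        (Finset.single_le_sum (f := fun j => Real.exp (β * g j q))
          (fun _ _ => (Real.exp_pos _).le) hj₀)
    have e2 : ∀ j ∈ s, Real.exp (β * g j q) * Lop v σ (g j) q
        ≤ (F q + ε / 2) * Real.exp (β * g j q)
          + Real.exp (-(β * γ j)) * (M j + |B|) * sexp s g β q := by
      intro j _
      have e3 : 0 ≤ M j + |B| := add_nonneg ((norm_nonneg _).trans (hM j q hq)) (abs_nonneg _)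
      have e4 := Real.exp_pos (β * g j q)
      rcases h3 j q hq with e5 | e5
      · have : 0 ≤ Real.exp (-(β * γ j)) * (M j + |B|) * sexp s g β q := by positivity
        nlinarith
      · have e6 : Real.exp (β * g j q) ≤ Real.exp (-(β * γ j)) * sexp s g β q := by
          refine le_trans ?_ (mul_le_mul_of_nonneg_left e1 (Real.exp_pos _).le)
          rw [← Real.exp_add]
          exact Real.exp_le_exp.2 (by nlinarith)
        have e7 : Lop v σ (g j) q - (F q + ε / 2) ≤ M j + |B| := by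
          have := (le_abs_self _).trans (hM j q hq)
          have := (hB q hq).2
          have := le_abs_self B
          linarith
        have e8 := mul_le_mul e6 e7
        by_cases e9 : 0 ≤ Lop v σ (g j) q - (F q + ε / 2)
        · have := e8 e9 (by positivity)
          nlinarith
        · have : 0 ≤ Real.exp (-(β * γ j)) * (M j + |B|) * sexp s g β q := by positivity
          nlinarith
    refine (Finset.sum_le_sum e2).trans ?_
    rw [Finset.sum_add_distrib, ← Finset.mul_sum, ← Finset.sum_mul]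
    change (F q + ε / 2) * sexp s g β q + _ ≤ _
    nlinarith

end Vale.Agent.P218UV
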