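import Vale.Agent.P218UA.Props
import Vale.Agent.P218UV.Approx

/-! The heat operator of a flow as an operator on functions of space-time. -/

open MeasureTheory Set Filter Topology Metric
open scoped RealInnerProductSpace ContDiff

namespace Vale.Agent.P218UV

open Vale.Agent.P218UA
open Vale.Agent.P218.H63 (lap)

/-- the Riesz isomorphism as a linear map -/
noncomputable def riesz : StrongDual ℝ E3 →L[ℝ] E3 :=
  (InnerProductSpace.toDual ℝ E3).symm.toContinuousLinearEquiv.toContinuousLinearMap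

theorem inner_riesz (l : StrongDual ℝ E3) (v : E3) : ⟪riesz l, v⟫ = l v :=
  InnerProductSpace.toDual_symm_apply

theorem inner_hs {f : E3 → ℝ} {x : E3} (hf : ContDiffAt ℝ 2 f x) (u v : E3) :
    ⟪hs f x u, v⟫ = fderiv ℝ (fderiv ℝ f) x u v := by
  have h1 : DifferentiableAt ℝ (fderiv ℝ f) x :=
    (hf.fderiv_right (m := 1) (by norm_num)).differentiableAt (by simp)
  have h2 : HasFDerivAt (gradient f) (riesz.comp (fderiv ℝ (fderiv ℝ f) x)) x :=
    riesz.hasFDerivAt.comp x h1.hasFDerivAt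
  unfold hs
  rw [h2.fderiv]
  exact inner_riesz _ _

/-- the standard basis -/
noncomputable abbrev eb (i : Fin 3) : E3 := EuclideanSpace.basisFun (Fin 3) ℝ i

theorem trace_eq (B : E3 →L[ℝ] E3) : LinearMap.trace ℝ E3 B.toLinearMap = ∑ i, ⟪B (eb i), eb i⟫ := by
  rw [LinearMap.trace_eq_sum_inner _ (EuclideanSpace.basisFun (Fin 3) ℝ)]
  exact Finset.sum_congr rfl fun i _ => real_inner_comm _ _

theorem trT_eq {n : E3} (hn : ‖n‖ = 1) (B : E3 →L[ℝ] E3) :
    trT n B = ∑ i, ⟪B (gT n (eb i)), gT n (eb i)⟫ := by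
  have h1 : ∑ i, ⟪n, eb i⟫ • eb i = n := by
    have := (EuclideanSpace.basisFun (Fin 3) ℝ).sum_repr' n
    simpa only [real_inner_comm] using this
  have h2 : ∑ i, ⟪n, eb i⟫ * ⟪n, eb i⟫ = 1 := by
    have := (EuclideanSpace.basisFun (Fin 3) ℝ).sum_inner_mul_inner n n
    rw [real_inner_self_eq_norm_sq, hn] at this
    simpa only [real_inner_comm, one_pow] using this
  have h3 : ∑ i, ⟪n, eb i⟫ * ⟪B (eb i), n⟫ = ⟪B n, n⟫ := by
    have := congrArg (fun u => ⟪B u, n⟫) h1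
    simpa only [map_sum, map_smul, sum_inner, real_inner_smul_left] using this
  have h4 : ∑ i, ⟪n, eb i⟫ * ⟪B n, eb i⟫ = ⟪B n, n⟫ := by
    have := congrArg (fun u => ⟪B n, u⟫) h1
    simpa only [inner_sum, real_inner_smul_right] using this
  unfold trT gT
  rw [trace_eq]
  simp only [map_sub, map_smul, inner_sub_left, inner_sub_right, real_inner_smul_left,
    real_inner_smul_right, Finset.sum_sub_distrib, ← mul_assoc, ← Finset.sum_mul, h2,
    h3, h4]
  ring

theorem fderiv_slice {F : Type*} [NormedAddCommGroup F] [NormedSpace ℝ F] {b : ℝ × E3 → F}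
    {p : ℝ × E3} (hb : DifferentiableAt ℝ b p) :
    fderiv ℝ (fun x => b (p.1, x)) p.2 = (fderiv ℝ b p).comp (ContinuousLinearMap.inr ℝ ℝ E3) :=
  (HasFDerivAt.comp p.2 (g := b) hb.hasFDerivAt (hasFDerivAt_prodMk_right p.1 p.2)).fderiv

theorem deriv_slice {b : ℝ × E3 → ℝ} {p : ℝ × E3} (hb : DifferentiableAt ℝ b p) :
    deriv (fun s => b (s, p.2)) p.1 = fderiv ℝ b p (1, 0) := by
  have h : HasDerivAt (fun s : ℝ => (s, p.2)) ((1 : ℝ), (0 : E3)) p.1 :=
    (hasDerivAt_id p.1).prodMk (hasDerivAt_const p.1 p.2)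
  exact (HasFDerivAt.comp_hasDerivAt p.1 (l := b) hb.hasFDerivAt h).deriv

theorem contDiffAt_slice {F : Type*} [NormedAddCommGroup F] [NormedSpace ℝ F] {b : ℝ × E3 → F}
    {p : ℝ × E3} {n : WithTop ℕ∞} (hb : ContDiffAt ℝ n b p) :
    ContDiffAt ℝ n (fun x => b (p.1, x)) p.2 :=
  ContDiffAt.comp p.2 (g := b) hb (contDiffAt_const.prodMk contDiffAt_id)

theorem dd_slice {b : ℝ × E3 → ℝ} {p : ℝ × E3} (hb : ContDiffAt ℝ 2 b p) (u v : E3) :
    fderiv ℝ (fderiv ℝ fun x => b (p.1, x)) p.2 u v = fderiv ℝ (fderiv ℝ b) p (0, u) (0, v) := by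
  have e1 := (hasFDerivAt_fderiv_apply (contDiffAt_slice hb) v).fderiv
  have e2 := hasFDerivAt_fderiv_apply hb (0, v)
  have e3 : (fun x => fderiv ℝ (fun x => b (p.1, x)) x v)
      =ᶠ[𝓝 p.2] fun x => fderiv ℝ b (p.1, x) (0, v) := by
    have h : ∀ᶠ q in 𝓝 p, ContDiffAt ℝ 2 b q := hb.eventually (by simp)
    have hc : Tendsto (fun x : E3 => (p.1, x)) (𝓝 p.2) (𝓝 p) :=
      (continuous_const.prodMk continuous_id).tendsto' _ _ rfl
    filter_upwards [hc.eventually h] with x hx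
    rw [fderiv_slice (p := (p.1, x)) (hx.differentiableAt (by simp))]
    simp
  have e4 := fderiv_slice e2.differentiableAt
  rw [e2.fderiv, ← e3.fderiv_eq, e1] at e4
  simpa using congrArg (fun L => L u) e4

/-- the tangential coordinate fields -/
noncomputable def sig (w : ℝ → E3 → ℝ) (i : Fin 3) (p : ℝ × E3) : ℝ × E3 :=
  (0, gT (gradient (w p.1) p.2) (eb i))

theorem heat_eq {w : ℝ → E3 → ℝ} {b : ℝ × E3 → ℝ} {p : ℝ × E3} (hb : ContDiffAt ℝ 2 b p)
    (hn : ‖gradient (w p.1) p.2‖ = 1) :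
    heat w (fun t x => b (t, x)) p.1 p.2 = Lop (1, 0) (sig w) b p := by
  unfold heat Lop
  rw [deriv_slice (hb.differentiableAt (by simp)), trT_eq hn]
  congr 1
  refine Finset.sum_congr rfl fun i _ => ?_
  rw [inner_hs (contDiffAt_slice hb), dd_slice hb]
  rfl

theorem contDiffAt_gradient {b : ℝ × E3 → ℝ} {p : ℝ × E3} {n m : WithTop ℕ∞}
    (hb : ContDiffAt ℝ n b p) (h : m + 1 ≤ n) :
    ContDiffAt ℝ m (fun q : ℝ × E3 => gradient (fun x => b (q.1, x)) q.2) p := by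
  have h1 : ContDiffAt ℝ m (fun q : ℝ × E3 => fderiv ℝ (fun x => b (q.1, x)) q.2) p :=
    ContDiffAt.fderiv (f := fun (q : ℝ × E3) (x : E3) => b (q.1, x)) (g := fun q => q.2)
      (ContDiffAt.comp (p, p.2) (g := b) hb (contDiffAt_fst.fst.prodMk contDiffAt_snd))
      contDiffAt_snd h
  exact riesz.contDiff.contDiffAt.comp p h1

theorem continuousAt_hs {b : ℝ × E3 → ℝ} {p : ℝ × E3} (hb : ContDiffAt ℝ 2 b p) :
    ContinuousAt (fun q : ℝ × E3 => hs (fun x => b (q.1, x)) q.2) p := by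
  have h1 := contDiffAt_gradient (m := 1) hb (by norm_num)
  have h2 : ContDiffAt ℝ 0 (fun q : ℝ × E3 =>
      fderiv ℝ (fun x => gradient (fun x => b (q.1, x)) x) q.2) p :=
    ContDiffAt.fderiv (f := fun (q : ℝ × E3) (x : E3) => gradient (fun x => b (q.1, x)) x)
      (g := fun q => q.2)
      (ContDiffAt.comp (p, p.2) (g := fun q : ℝ × E3 => gradient (fun x => b (q.1, x)) q.2) h1
        (contDiffAt_fst.fst.prodMk contDiffAt_snd)) contDiffAt_snd (by norm_num)
  exact h2.continuousAt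

theorem continuousAt_dt {b : ℝ × E3 → ℝ} {p : ℝ × E3} (hb : ContDiffAt ℝ 1 b p) :
    ContinuousAt (fun q : ℝ × E3 => deriv (fun s => b (s, q.2)) q.1) p := by
  have h1 : ContinuousAt (fun q => fderiv ℝ b q (1, 0)) p :=
    (hb.fderiv_right (m := 0) (by norm_num)).continuousAt.clm_apply continuousAt_const
  refine h1.congr ?_
  filter_upwards [hb.eventually (by simp)] with q hq
  exact (deriv_slice (hq.differentiableAt (by simp))).symm

theorem continuous_trT : Continuous fun q : E3 × (E3 →L[ℝ] E3) => trT q.1 q.2 := by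
  unfold trT
  simp only [trace_eq]
  fun_prop

theorem lap_eq (f : E3 → ℝ) (x : E3) : lap f x = ∑ i, ⟪hs f x (eb i), eb i⟫ := trace_eq _

theorem _root_.Vale.Agent.P218UA.IsFlow.contDiffAt {w : ℝ → E3 → ℝ} {I : Set ℝ} (hw : IsFlow w I)
    {p : ℝ × E3} (hp : p.1 ∈ I) : ContDiffAt ℝ ∞ (fun q : ℝ × E3 => w q.1 q.2) p :=
  hw.smooth.contDiffAt ((hw.isOpen.prod isOpen_univ).mem_nhds ⟨hp, trivial⟩)

theorem continuousAt_nu {w : ℝ → E3 → ℝ} {I : Set ℝ} (hw : IsFlow w I) {p : ℝ × E3}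
    (hp : p.1 ∈ I) : ContinuousAt (fun q : ℝ × E3 => gradient (w q.1) q.2) p :=
  (contDiffAt_gradient (m := 0) (hw.contDiffAt hp) (by simp)).continuousAt

theorem continuousAt_lap {w : ℝ → E3 → ℝ} {I : Set ℝ} (hw : IsFlow w I) {p : ℝ × E3}
    (hp : p.1 ∈ I) : ContinuousAt (fun q : ℝ × E3 => lap (w q.1) q.2) p := by
  have h := continuousAt_hs ((hw.contDiffAt hp).of_le (m := 2) (by norm_cast))
  simp only [lap_eq]
  exact tendsto_finsetSum _ fun i _ =>
    (h.clm_apply continuousAt_const).inner continuousAt_const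

theorem continuousAt_heat {w : ℝ → E3 → ℝ} {I : Set ℝ} (hw : IsFlow w I) {b : ℝ × E3 → ℝ}
    {p : ℝ × E3} (hp : p.1 ∈ I) (hb : ContDiffAt ℝ 2 b p) :
    ContinuousAt (fun q : ℝ × E3 => heat w (fun t x => b (t, x)) q.1 q.2) p :=
  (continuousAt_dt (hb.of_le (by norm_num))).sub
    (continuous_trT.continuousAt.comp ((continuousAt_nu hw hp).prodMk (continuousAt_hs hb)))

theorem continuousAt_adj {w : ℝ → E3 → ℝ} {I : Set ℝ} (hw : IsFlow w I) {b : ℝ × E3 → ℝ}
    {p : ℝ × E3} (hp : p.1 ∈ I) (hb : ContDiffAt ℝ 2 b p) :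
    ContinuousAt (fun q : ℝ × E3 => adj w (fun t x => b (t, x)) q.1 q.2) p :=
  (((continuousAt_dt (hb.of_le (by norm_num))).add
    (continuous_trT.continuousAt.comp ((continuousAt_nu hw hp).prodMk (continuousAt_hs hb)))).sub
    ((continuousAt_const.mul (continuousAt_lap hw hp)).mul
      ((contDiffAt_gradient (m := 0) hb (by norm_num)).continuousAt.inner
        (continuousAt_nu hw hp)))).sub (((continuousAt_lap hw hp).pow 2).mul hb.continuousAt)

theorem adj_eq_zero {w : ℝ → E3 → ℝ} {b : ℝ × E3 → ℝ} {p : ℝ × E3} (hp : p ∉ tsupport b) :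
    adj w (fun t x => b (t, x)) p.1 p.2 = 0 := by
  have h : b =ᶠ[𝓝 p] 0 := notMem_tsupport_iff_eventuallyEq.1 hp
  have h1 : (fun s => b (s, p.2)) =ᶠ[𝓝 p.1] fun _ => 0 :=
    ((continuous_id.prodMk continuous_const).tendsto' p.1 p rfl).eventually h
  have h2 : (fun x => b (p.1, x)) =ᶠ[𝓝 p.2] fun _ => 0 :=
    ((continuous_const.prodMk continuous_id).tendsto' p.2 p rfl).eventually h
  have h3 : gradient (fun x => b (p.1, x)) =ᶠ[𝓝 p.2] fun _ => 0 := by
    filter_upwards [h2.eventuallyEq_nhds] with x hx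
    rw [hx.gradient_eq]
    simp
  unfold adj hs trT
  simp only [h1.deriv_eq, h3.fderiv_eq, h3.self_of_nhds, h.self_of_nhds]
  simp

end Vale.Agent.P218UV
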