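import Vale.Agent.P218UV.Heat
import Mathlib.MeasureTheory.Integral.Bochner.VitaliCaratheodory
import Mathlib.MeasureTheory.Integral.IntegralEqImproper

/-! Barriers from below imply the integrated inequality along a flow. -/

open MeasureTheory Set Filter Topology Metric
open scoped RealInnerProductSpace ContDiff

namespace Vale.Agent.P218UV

open Vale.Agent.P218UA

variable {w : ℝ → E3 → ℝ} {I : Set ℝ}

/-- the part of the track in the support of `ψ` -/
def trk (w : ℝ → E3 → ℝ) (ψ : ℝ × E3 → ℝ) : Set (ℝ × E3) := tsupport ψ ∩ {p | w p.1 p.2 = 0}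

theorem isCompact_trk (hw : IsFlow w I) {ψ : ℝ × E3 → ℝ} (hc : HasCompactSupport ψ)
    (hI : tsupport ψ ⊆ I ×ˢ univ) : IsCompact (trk w ψ) :=
  hc.isCompact.of_isClosed_subset
    (ContinuousOn.preimage_isClosed_of_isClosed (f := fun p : ℝ × E3 => w p.1 p.2) (t := {0})
      (hw.smooth.continuousOn.mono hI) (isClosed_tsupport ψ) isClosed_singleton)
    inter_subset_left

theorem int_trk (hC : Calc) (hw : IsFlow w I) {ψ : ℝ × E3 → ℝ} {h : ℝ × E3 → ℝ} (h0 : ∀ p, p ∉ tsupport ψ → h p = 0)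
    (hi : IntegrableOn h (trk w ψ) (stm w I)) :
    Integrable h (stm w I) ∧ ∫ p, h p ∂(stm w I) = ∫ p in trk w ψ, h p ∂(stm w I) := by
  have hae : ∀ᵐ p ∂(stm w I), p ∉ trk w ψ → h p = 0 := by
    filter_upwards [hC.stm_ae w I hw] with p hp hn
    exact h0 p fun h' => hn ⟨h', hp.2⟩
  exact ⟨hi.integrable_of_ae_notMem_eq_zero hae,
    (setIntegral_eq_integral_of_ae_compl_eq_zero hae).symm⟩

theorem intOn_trk (hC : Calc) (hw : IsFlow w I) {ψ : ℝ × E3 → ℝ} (hc : HasCompactSupport ψ)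
    (hI : tsupport ψ ⊆ I ×ˢ univ) {h : ℝ × E3 → ℝ}
    (hm : AEStronglyMeasurable h ((stm w I).restrict (trk w ψ))) {B : ℝ}
    (hB : ∀ p ∈ trk w ψ, ‖h p‖ ≤ B) : IntegrableOn h (trk w ψ) (stm w I) := by
  have : IsFiniteMeasure ((stm w I).restrict (trk w ψ)) := ⟨by
    rw [Measure.restrict_apply_univ]
    exact hC.stm_fin w I hw _ (isCompact_trk hw hc hI) (inter_subset_left.trans hI)⟩
  exact Integrable.of_bound hm B ((ae_restrict_mem (isCompact_trk hw hc hI).measurableSet).mono hB)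

theorem intOn_trk_cont (hC : Calc) (hw : IsFlow w I) {ψ : ℝ × E3 → ℝ} (hc : HasCompactSupport ψ)
    (hI : tsupport ψ ⊆ I ×ˢ univ) {h : ℝ × E3 → ℝ} (hh : ContinuousOn h (trk w ψ)) :
    IntegrableOn h (trk w ψ) (stm w I) :=
  let ⟨_, hB⟩ := (isCompact_trk hw hc hI).exists_bound_of_continuousOn hh
  intOn_trk hC hw hc hI (hh.aestronglyMeasurable (isCompact_trk hw hc hI).measurableSet) hB

/-- the integrated Green identity -/
theorem green_int (hC : Calc) (hw : IsFlow w I) {ψ g : ℝ × E3 → ℝ} (hψ : ContDiff ℝ 2 ψ)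
    (hc : HasCompactSupport ψ) (hI : tsupport ψ ⊆ I ×ˢ univ) (hg : ContDiff ℝ 2 g) :
    ∫ p in trk w ψ, (ψ p * heat w (fun t x => g (t, x)) p.1 p.2
      + g p * adj w (fun t x => ψ (t, x)) p.1 p.2) ∂(stm w I) = 0 := by
  set h : ℝ × E3 → ℝ := fun p => ψ p * heat w (fun t x => g (t, x)) p.1 p.2
      + g p * adj w (fun t x => ψ (t, x)) p.1 p.2 with hh
  have h0 : ∀ p, p ∉ tsupport ψ → h p = 0 := fun p hp => by
    simp only [hh, adj_eq_zero hp, image_eq_zero_of_notMem_tsupport hp]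
    simp
  have hcont : ContinuousOn h (trk w ψ) := fun p hp =>
    ((hψ.continuous.continuousAt.mul (continuousAt_heat hw (hI hp.1).1 hg.contDiffAt)).add
      (hg.continuous.continuousAt.mul
        (continuousAt_adj hw (hI hp.1).1 hψ.contDiffAt))).continuousWithinAt
  obtain ⟨h1, h2⟩ := int_trk hC hw h0 (intOn_trk_cont hC hw hc hI hcont)
  obtain ⟨h3, h4⟩ := hC.stm_int w I hw h h1
  rw [← h2, h4]
  have hT : IsCompact (Prod.fst '' tsupport ψ) := hc.isCompact.image continuous_fst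
  have hz : ∀ t, t ∉ Prod.fst '' tsupport ψ → ∀ x, (t, x) ∉ tsupport ψ :=
    fun t ht x hx => ht ⟨_, hx, rfl⟩
  have hD0 : ∀ t, t ∉ Prod.fst '' tsupport ψ → ∫ x, h (t, x) ∂(ar (w t)) = 0 := fun t ht => by
    simp [h0 _ (hz t ht _)]
  have hφ0 : ∀ t, t ∉ Prod.fst '' tsupport ψ → ∫ x, ψ (t, x) * g (t, x) ∂(ar (w t)) = 0 :=
    fun t ht => by simp [image_eq_zero_of_notMem_tsupport (hz t ht _)]
  have hTI : ∀ t, t ∉ I → t ∉ Prod.fst '' tsupport ψ := by
    rintro t ht ⟨p, hp, rfl⟩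
    exact ht (hI hp).1
  have hder : ∀ t, HasDerivAt (fun t => ∫ x, ψ (t, x) * g (t, x) ∂(ar (w t)))
      (∫ x, h (t, x) ∂(ar (w t))) t := by
    intro t
    by_cases ht : t ∈ I
    · exact hC.green w I hw I hw.isOpen Subset.rfl (fun t x => ψ (t, x)) (fun t x => g (t, x))
        hψ.contDiffOn hg.contDiffOn (Prod.snd '' tsupport ψ) (hc.isCompact.image continuous_snd)
        (fun t _ x hx => image_eq_zero_of_notMem_tsupport fun h' => hx ⟨_, h', rfl⟩) t ht
    · rw [hD0 t (hTI t ht)]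
      refine (hasDerivAt_const t (0 : ℝ)).congr_of_eventuallyEq ?_
      filter_upwards [hT.isClosed.isOpen_compl.mem_nhds (hTI t ht)] with s hs using hφ0 s hs
  rw [setIntegral_eq_integral_of_forall_compl_eq_zero fun t ht => hD0 t (hTI t ht)]
  refine integral_eq_zero_of_hasDerivAt_of_integrable hder
    (h3.integrable_of_forall_notMem_eq_zero fun t ht => hD0 t (hTI t ht)) ?_
  exact (continuous_iff_continuousAt.2 fun t => (hder t).continuousAt).integrable_of_hasCompactSupport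
    (HasCompactSupport.intro hT hφ0)

/-- a bounded lower semicontinuous majorant with almost the same integral -/
theorem exists_lsc {α : Type*} [TopologicalSpace α] [MeasurableSpace α] [BorelSpace α]
    (μ : Measure α) [μ.WeaklyRegular] [SigmaFinite μ] {F : α → ℝ} (hF : Integrable F μ) (B : ℝ)
    (hB : ∀ᵐ x ∂μ, F x ≤ B) {ε : ℝ} (hε : 0 < ε) :
    ∃ F' : α → ℝ, LowerSemicontinuous F' ∧ (∀ x, F x ≤ B → F x ≤ F' x) ∧ Integrable F' μ ∧
      ∫ x, F' x ∂μ ≤ ∫ x, F x ∂μ + ε := by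
  obtain ⟨g, h1, h2, h3, h4, h5⟩ := exists_lt_lowerSemicontinuous_integral_lt F hF hε
  have hne : ∀ x, ((min (g x) (B : EReal)).toReal : EReal) = min (g x) (B : EReal) := fun x =>
    EReal.coe_toReal ((min_le_right _ _).trans_lt (EReal.coe_lt_top B)).ne
      (lt_min ((EReal.bot_lt_coe _).trans (h1 x)) (EReal.bot_lt_coe B)).ne'
  have hl : LowerSemicontinuous fun x => (min (g x) (B : EReal)).toReal := by
    intro x y hy
    change y < (min (g x) (B : EReal)).toReal at hy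
    rw [← EReal.coe_lt_coe_iff, hne, lt_min_iff] at hy
    filter_upwards [h2 x _ hy.1] with x' hx'
    change y < (min (g x') (B : EReal)).toReal
    rw [← EReal.coe_lt_coe_iff, hne, lt_min_iff]
    exact ⟨hx', hy.2⟩
  have hle : ∀ x, F x ≤ B → F x ≤ (min (g x) (B : EReal)).toReal := fun x hx => by
    rw [← EReal.coe_le_coe_iff, hne]
    exact le_min (h1 x).le (EReal.coe_le_coe_iff.2 hx)
  have hge : ∀ᵐ x ∂μ, (min (g x) (B : EReal)).toReal ≤ (g x).toReal := by
    filter_upwards [h4] with x hx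
    rw [← EReal.coe_le_coe_iff, hne, EReal.coe_toReal hx.ne ((EReal.bot_lt_coe _).trans (h1 x)).ne']
    exact min_le_left _ _
  have hi : Integrable (fun x => (min (g x) (B : EReal)).toReal) μ :=
    integrable_of_le_of_le hl.measurable.aestronglyMeasurable (hB.mono fun x hx => hle x hx) hge
      hF h3
  exact ⟨_, hl, hle, hi, (integral_mono_ae hi h3 hge).trans h5.le⟩

theorem continuousAt_sig (hw : IsFlow w I) {p : ℝ × E3} (hp : p.1 ∈ I) (i : Fin 3) :
    ContinuousAt (sig w i) p := by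
  have h := continuousAt_nu hw hp
  have h1 : ContinuousAt (fun q : ℝ × E3 => ⟪gradient (w q.1) q.2, eb i⟫) p :=
    h.inner continuousAt_const
  exact continuousAt_const.prodMk (continuousAt_const.sub (h1.smul h))

/-- the integrated inequality for a function with barriers from below -/
theorem visc_trk (hC : Calc) (hw : IsFlow w I) {ψ G F : ℝ × E3 → ℝ} (hψ : ContDiff ℝ 2 ψ)
    (hc : HasCompactSupport ψ) (hI : tsupport ψ ⊆ I ×ˢ univ) (hψ0 : ∀ p, 0 ≤ ψ p)
    (hFm : AEStronglyMeasurable F ((stm w I).restrict (trk w ψ))) {B : ℝ}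
    (hB : ∀ p ∈ trk w ψ, |G p| ≤ B ∧ |F p| ≤ B) (hG : UpperSemicontinuousOn G (trk w ψ))
    (hb : ∀ p ∈ trk w ψ, ∃ b : ℝ × E3 → ℝ, ContDiffAt ℝ 2 b p ∧ b p = G p ∧
      (∀ᶠ q in 𝓝[trk w ψ] p, b q ≤ G q) ∧ heat w (fun t x => b (t, x)) p.1 p.2 ≤ F p) :
    ContinuousOn G (trk w ψ) ∧
      0 ≤ ∫ p in trk w ψ, (G p * adj w (fun t x => ψ (t, x)) p.1 p.2 + ψ p * F p) ∂(stm w I) := by
  have hK := isCompact_trk hw hc hI
  have hGc : ContinuousOn G (trk w ψ) := by
    refine (continuousOn_iff_lower_upperSemicontinuousOn).2 ⟨fun p hp y hy => ?_, hG⟩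
    obtain ⟨b, h1, h2, h3, _⟩ := hb p hp
    have h4 : ∀ᶠ q in 𝓝[trk w ψ] p, y < b q :=
      h1.continuousAt.continuousWithinAt.eventually (lt_mem_nhds (h2 ▸ hy))
    filter_upwards [h3, h4] with q h5 h6 using h6.trans_le h5
  refine ⟨hGc, ?_⟩
  set μ := (stm w I).restrict (trk w ψ) with hμ
  have : IsFiniteMeasure μ := ⟨by
    rw [hμ, Measure.restrict_apply_univ]
    exact hC.stm_fin w I hw _ hK (inter_subset_left.trans hI)⟩
  have hae : ∀ᵐ p ∂μ, p ∈ trk w ψ := ae_restrict_mem hK.measurableSet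
  set a : ℝ × E3 → ℝ := fun p => adj w (fun t x => ψ (t, x)) p.1 p.2 with ha
  have hac : ContinuousOn a (trk w ψ) := fun p hp =>
    (continuousAt_adj hw (hI hp.1).1 hψ.contDiffAt).continuousWithinAt
  have hFi : Integrable F μ := intOn_trk hC hw hc hI hFm fun p hp => (hB p hp).2
  obtain ⟨M, hM⟩ := hψ.continuous.bounded_above_of_compact_support hc
  have hM0 : 0 ≤ M := (norm_nonneg _).trans (hM 0)
  have hψi : Integrable ψ μ := intOn_trk_cont hC hw hc hI hψ.continuous.continuousOn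
  have hai : Integrable (fun p => |a p|) μ := intOn_trk_cont hC hw hc hI hac.abs
  have hGa : Integrable (fun p => G p * a p) μ := intOn_trk_cont hC hw hc hI (hGc.mul hac)
  have hψF : Integrable (fun p => ψ p * F p) μ :=
    hFi.bdd_mul hψ.continuous.aestronglyMeasurable (ae_of_all _ hM)
  set D := ∫ p, |a p| ∂μ + ∫ p, ψ p ∂μ + M with hD
  have hD0 : 0 ≤ D := add_nonneg (add_nonneg (integral_nonneg fun _ => abs_nonneg _)
    (integral_nonneg hψ0)) hM0
  have key : ∀ ε, 0 < ε → 0 ≤ ∫ p, (G p * a p + ψ p * F p) ∂μ + ε * D := by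
    intro ε hε
    obtain ⟨F', h1, h2, h3, h4⟩ := exists_lsc μ hFi B
      (hae.mono fun p hp => (le_abs_self _).trans (hB p hp).2) hε
    have h2' : ∀ p ∈ trk w ψ, F p ≤ F' p := fun p hp => h2 p ((le_abs_self _).trans (hB p hp).2)
    obtain ⟨g, hg, hg'⟩ := exists_smooth_approx (v := ((1 : ℝ), (0 : E3))) (σ := sig w) (G := G)
      (F := F') (B := B) hK
      (fun i p hp => (continuousAt_sig hw (hI hp.1).1 i).continuousWithinAt)
      (fun p hp => ⟨(abs_le.1 (hB p hp).1).1, (abs_le.1 (hB p hp).2).1.trans (h2' p hp)⟩) hG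
      (h1.lowerSemicontinuousOn _)
      (fun p hp => by
        obtain ⟨b, e1, e2, e3, e4⟩ := hb p hp
        refine ⟨b, e1, e2, e3, ?_⟩
        rw [← heat_eq e1 (hw.eik p.1 (hI hp.1).1 p.2 hp.2).self_of_nhds]
        exact e4.trans (h2' p hp)) hε
    have h5 := green_int hC hw hψ hc hI hg
    have h6 : Integrable (fun p => ψ p * heat w (fun t x => g (t, x)) p.1 p.2 + g p * a p) μ :=
      intOn_trk_cont hC hw hc hI fun p hp =>
        ((hψ.continuous.continuousAt.mul (continuousAt_heat hw (hI hp.1).1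
          hg.contDiffAt)).continuousWithinAt).add (hg.continuous.continuousWithinAt.mul (hac p hp))
    have h7 : Integrable (fun p => (G p * a p + ψ p * F p) + (ε * |a p| + ε * ψ p
        + M * (F' p - F p))) μ :=
      (hGa.add hψF).add (((hai.const_mul ε).add (hψi.const_mul ε)).add ((h3.sub hFi).const_mul M))
    have h8 := integral_mono_ae h6 h7 (hae.mono fun p hp => by
      obtain ⟨e1, e2, e3⟩ := hg' p hp
      rw [← heat_eq hg.contDiffAt (hw.eik p.1 (hI hp.1).1 p.2 hp.2).self_of_nhds] at e3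
      have e4 := mul_le_mul_of_nonneg_left e3 (hψ0 p)
      have e5 : ψ p ≤ M := (le_abs_self _).trans (hM p)
      have e6 := mul_le_mul_of_nonneg_right e5 (sub_nonneg.2 (h2' p hp))
      have e7 : (g p - G p) * a p ≤ ε * |a p| :=
        (mul_le_mul_of_nonneg_left (le_abs_self _) (sub_nonneg.2 e1)).trans
          (mul_le_mul_of_nonneg_right (by linarith) (abs_nonneg _))
      change _ ≤ _
      nlinarith)
    have i1 : Integrable (fun p => G p * a p + ψ p * F p) μ := hGa.add hψF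
    have i2 : Integrable (fun p => ε * |a p| + ε * ψ p) μ := (hai.const_mul ε).add (hψi.const_mul ε)
    have i3 : Integrable (fun p => M * (F' p - F p)) μ := (h3.sub hFi).const_mul M
    have i4 : Integrable (fun p => ε * |a p| + ε * ψ p + M * (F' p - F p)) μ := i2.add i3
    rw [integral_add i1 i4, integral_add i2 i3, integral_add (hai.const_mul ε) (hψi.const_mul ε),
      integral_const_mul, integral_const_mul, integral_const_mul, integral_sub h3 hFi] at h8
    have h9 : M * (∫ p, F' p ∂μ - ∫ p, F p ∂μ) ≤ M * ε :=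
      mul_le_mul_of_nonneg_left (by linarith) hM0
    change ∫ p, (ψ p * heat w (fun t x => g (t, x)) p.1 p.2 + g p * a p) ∂μ = 0 at h5
    rw [h5] at h8
    rw [hD]
    linarith
  refine le_of_forall_pos_le_add fun ε hε => ?_
  have h := key (ε / (D + 1)) (by positivity)
  have h' : ε / (D + 1) * D ≤ ε := by
    rw [div_mul_eq_mul_div, div_le_iff₀ (by positivity)]
    nlinarith
  linarith

/-- the same, with integrals over the whole space-time -/
theorem visc_int (hC : Calc) (hw : IsFlow w I) {ψ : ℝ → E3 → ℝ} {G F : ℝ × E3 → ℝ}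
    (hψ : ContDiff ℝ 2 fun p : ℝ × E3 => ψ p.1 p.2)
    (hc : HasCompactSupport fun p : ℝ × E3 => ψ p.1 p.2)
    (hI : tsupport (fun p : ℝ × E3 => ψ p.1 p.2) ⊆ I ×ˢ univ) (hψ0 : ∀ t x, 0 ≤ ψ t x)
    (hFm : AEStronglyMeasurable F ((stm w I).restrict (trk w fun p => ψ p.1 p.2))) {B : ℝ}
    (hB : ∀ p ∈ trk w fun p => ψ p.1 p.2, |G p| ≤ B ∧ |F p| ≤ B)
    (hG : UpperSemicontinuousOn G (trk w fun p => ψ p.1 p.2))
    (hb : ∀ p ∈ trk w fun p => ψ p.1 p.2, ∃ b : ℝ × E3 → ℝ, ContDiffAt ℝ 2 b p ∧ b p = G p ∧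
      (∀ᶠ q in 𝓝[trk w fun p => ψ p.1 p.2] p, b q ≤ G q) ∧
        heat w (fun t x => b (t, x)) p.1 p.2 ≤ F p) :
    Integrable (fun p : ℝ × E3 => G p * adj w ψ p.1 p.2) (stm w I) ∧
      Integrable (fun p : ℝ × E3 => ψ p.1 p.2 * F p) (stm w I) ∧
      0 ≤ ∫ p, (G p * adj w ψ p.1 p.2 + ψ p.1 p.2 * F p) ∂(stm w I) := by
  obtain ⟨h1, h2⟩ := visc_trk hC hw hψ hc hI (fun p => hψ0 p.1 p.2) hFm hB hG hb
  have h3 : IntegrableOn (fun p : ℝ × E3 => G p * adj w ψ p.1 p.2) (trk w fun p => ψ p.1 p.2)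
      (stm w I) := intOn_trk_cont hC hw hc hI (h1.mul fun p hp =>
        (continuousAt_adj hw (hI hp.1).1 hψ.contDiffAt).continuousWithinAt)
  obtain ⟨M, hM⟩ := hψ.continuous.bounded_above_of_compact_support hc
  have h4 : IntegrableOn (fun p : ℝ × E3 => ψ p.1 p.2 * F p) (trk w fun p => ψ p.1 p.2)
      (stm w I) := (intOn_trk hC hw hc hI hFm fun p hp => (hB p hp).2).bdd_mul
        hψ.continuous.aestronglyMeasurable (ae_of_all _ hM)
  have h5 : ∀ p : ℝ × E3, p ∉ tsupport (fun p : ℝ × E3 => ψ p.1 p.2) →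
      G p * adj w ψ p.1 p.2 = 0 := fun p hp => by
    rw [show adj w ψ p.1 p.2 = 0 from adj_eq_zero hp, mul_zero]
  have h6 : ∀ p : ℝ × E3, p ∉ tsupport (fun p : ℝ × E3 => ψ p.1 p.2) → ψ p.1 p.2 * F p = 0 :=
    fun p hp => by rw [show ψ p.1 p.2 = 0 from
      image_eq_zero_of_notMem_tsupport (f := fun p : ℝ × E3 => ψ p.1 p.2) hp, zero_mul]
  refine ⟨(int_trk hC hw h5 h3).1, (int_trk hC hw h6 h4).1, ?_⟩
  exact h2.trans_eq (int_trk hC hw (h := fun p => G p * adj w ψ p.1 p.2 + ψ p.1 p.2 * F p)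
    (fun p hp => by rw [h5 p hp, h6 p hp, add_zero]) (h3.add h4)).2.symm

end Vale.Agent.P218UV
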