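import Vale.Agent.P218UV.Gam
import Vale.Agent.P218UV.Visc

/-! The integrated inequality for `G = ∫_O γ dy`, from barriers for the lower end of `O`. -/

open MeasureTheory Set Filter Topology Metric
open scoped RealInnerProductSpace ContDiff

namespace Vale.Agent.P218UV

open Vale.Agent.P218UA Vale.Agent.P218UO Vale.Agent.P218UL

theorem exists_level {S : Set ℝ} (hS : IsOpen S) (up : ∀ y y', y ∈ S → y ≤ y' → y' ∈ S) {a b : ℝ}
    (hab : a ≤ b) (h : ∀ y ∈ S, a < y) :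
    ∃ u ∈ Icc a b, (∀ y < b, y ∈ S ↔ u < y) ∧ (u < b → S = Ioi u) := by
  have hb : a ∈ lowerBounds (insert b S) := by
    rintro y (rfl | hy)
    exacts [hab, (h y hy).le]
  have key : ∀ y < b, y ∈ S ↔ sInf (insert b S) < y := fun y hy => ⟨fun h1 => by
    obtain ⟨y', h2, h3⟩ := (Eventually.and (f := 𝓝[<] y) (mem_nhdsWithin_of_mem_nhds
      (hS.mem_nhds h1)) self_mem_nhdsWithin).exists
    exact (csInf_le ⟨a, hb⟩ (Or.inr h2)).trans_lt h3, fun h1 => by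
    obtain ⟨y', rfl | h2, h3⟩ := exists_lt_of_csInf_lt (insert_nonempty b S) h1
    exacts [absurd h3 hy.not_gt, up _ _ h2 h3.le]⟩
  refine ⟨_, ⟨le_csInf (insert_nonempty b S) hb, csInf_le ⟨a, hb⟩ (Or.inl rfl)⟩, key,
    fun h1 => Set.ext fun y => ?_⟩
  rcases lt_or_ge y b with h2 | h2
  · exact key y h2
  · obtain ⟨z, h3, h4⟩ := exists_between h1
    exact iff_of_true (up _ _ ((key z h4).2 h3) (h4.le.trans h2)) (h1.trans_le h2)

theorem int_level {S : Set ℝ} (hS : MeasurableSet S) {u b : ℝ} (hu : u ≤ b)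
    (h : ∀ y < b, y ∈ S ↔ u < y) {f : ℝ → ℝ} (hf : ∀ y, b ≤ y → f y = 0) :
    ∫ y in S, f y = ∫ y in u..b, f y := by
  rw [intervalIntegral.integral_of_le hu, integral_Ioc_eq_integral_Ioo]
  exact setIntegral_eq_of_subset_of_forall_sdiff_eq_zero hS (fun y hy => (h y hy.2).2 hy.1)
    fun y hy => hf y (not_lt.1 fun h1 => hy.2 ⟨(h y h1).1 hy.1, h1⟩)

theorem int_le {f : ℝ → ℝ} (hf : Continuous f) (h0 : ∀ y, 0 ≤ f y) {a s : ℝ}
    (h : ∀ y ∈ Ioc a s, f y = 0) (b : ℝ) : ∫ y in a..b, f y ≤ ∫ y in s..b, f y := by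
  rw [← intervalIntegral.integral_add_adjacent_intervals (hf.intervalIntegrable a s)
    (hf.intervalIntegrable s b), add_le_iff_nonpos_left]
  rcases le_total a s with h1 | h1
  · rw [intervalIntegral.integral_of_le h1, setIntegral_eq_zero_of_forall_eq_zero h]
  · rw [intervalIntegral.integral_symm, neg_nonpos]
    exact intervalIntegral.integral_nonneg h1 fun y _ => h0 y

variable {w : ℝ → E3 → ℝ} {I : Set ℝ}

theorem cont_heat (hw : IsFlow w I) {g : ST × ℝ → ℝ} {U K : Set ST} (hU : IsOpen U)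
    (hg : ContDiffOn ℝ 2 g (U ×ˢ univ)) (hK : ∀ p ∈ K, p ∈ U ∧ p.1 ∈ I ∧ w p.1 p.2 = 0) :
    ContinuousOn (fun a : ST × ℝ => heat w (fun t x => g ((t, x), a.2)) a.1.1 a.1.2)
      (K ×ˢ univ) := by
  have hs : K ×ˢ (univ : Set ℝ) ⊆ U ×ˢ univ := prod_mono_left fun p hp => (hK p hp).1
  have h1 : ∀ i, ContinuousOn (fun a : ST × ℝ => ((sig w i a.1, 0) : ST × ℝ)) (K ×ˢ univ) :=
    fun i a ha => (((continuousAt_sig hw (hK _ ha.1).2.1 i).comp continuousAt_fst).prodMk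
      continuousAt_const).continuousWithinAt
  refine ContinuousOn.congr (f := fun a => fderiv ℝ g a ((1, 0), 0)
    - ∑ i, D2 g a (sig w i a.1, 0)) (((cont_d1 hU hg _).mono hs).sub (continuousOn_finsetSum _
      fun i _ => (((cont_d2 hU hg).mono hs).clm_apply (h1 i)).clm_apply (h1 i))) fun a ha => ?_
  have h2 := cd_at hU hg (hK _ ha.1).1 a.2
  rw [heat_eq (b := fun q => g (q, a.2)) (h2.comp a.1 (by fun_prop))
    (hw.eik _ (hK _ ha.1).2.1 _ (hK _ ha.1).2.2).self_of_nhds]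
  exact congrArg₂ (· - ·) (slice_level h2 _).1
    (Finset.sum_congr rfl fun i _ => (slice_level h2 _).2)

theorem asm (hC : Calc) (hw : IsFlow w I) {O : ℝ → E3 → Set ℝ} {Qt : ℝ → E3 → ℝ → Prop} {c C : ℝ}
    (hc : 0 < c) (hC0 : 0 ≤ C) (up : ∀ t x y y', y ∈ O t x → y ≤ y' → y' ∈ O t x)
    (op : IsOpen {p : ℝ × E3 × ℝ | p.1 ∈ I ∧ p.2.2 ∈ O p.1 p.2.1})
    (cl : ∀ t ∈ I, ∀ x y, w t x = 0 → Qt t x y → (∃ᶠ a : ℝ × E3 × ℝ in 𝓝 (t, x, y),
      w a.1 a.2.1 = 0 ∧ a.2.2 ∈ O a.1 a.2.1) → ∀ η > 0, y + η ∈ O t x)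
    (bar : ∀ t ∈ I, ∀ x y, w t x = 0 → Qt t x y → O t x = Ioi y → ∀ e₁ e₂,
      Fr (gradient (w t) x) e₁ e₂ → ∃ P : ST → ℝ, ContDiffAt ℝ 2 P (t, x) ∧ P (t, x) = y ∧
        (∀ᶠ q : ST in 𝓝 (t, x), w q.1 q.2 = 0 → Ioi (P q) ⊆ O q.1 q.2) ∧
        2 * c * Gf e₁ e₂ P (t, x) ≤ Lf e₁ e₂ P (t, x) ∧ Real.exp (2 * y) * Gf e₁ e₂ P (t, x) ≤ C)
    (J : Set ℝ) (γ : ℝ → E3 → ℝ → ℝ) (ψ : ℝ → E3 → ℝ) (q : ℝ × E3 → ℝ) (y₀ y₁ : ℝ)
    (hJ : IsOpen J) (hJI : J ⊆ I)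
    (hγ : ContDiffOn ℝ 2 (fun p : ℝ × E3 × ℝ => γ p.1 p.2.1 p.2.2) (J ×ˢ univ))
    (h0 : ∀ t ∈ J, ∀ x y, 0 ≤ γ t x y) (h1 : ∀ t ∈ J, ∀ x y, y₁ ≤ y → γ t x y = 0)
    (hψ : ContDiff ℝ 2 fun p : ℝ × E3 => ψ p.1 p.2)
    (hψc : HasCompactSupport fun p : ℝ × E3 => ψ p.1 p.2)
    (hψJ : tsupport (fun p : ℝ × E3 => ψ p.1 p.2) ⊆ J ×ˢ univ) (hψ0 : ∀ t x, 0 ≤ ψ t x)
    (hq : Measurable q) (hqB : ∃ B, ∀ p, 0 ≤ q p ∧ q p ≤ B)
    (H : ∀ p ∈ tsupport (fun p : ℝ × E3 => ψ p.1 p.2), w p.1 p.2 = 0 →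
      (∀ y ∈ O p.1 p.2, y₀ < y) ∧ ∀ y, y₀ ≤ y →
        ((p.1, p.2, y) ∈ closure {p' : ℝ × E3 × ℝ | p'.1 ∈ J ∧ γ p'.1 p'.2.1 p'.2.2 ≠ 0} →
          Qt p.1 p.2 y) ∧ ‖gradient (fun x => γ p.1 x y) p.2‖ ^ 2 ≤ γ p.1 p.2 y * q p ∧
        deriv (γ p.1 p.2) y - c * γ p.1 p.2 y ≤ Real.exp (2 * y) * q p) :
    Integrable (fun p : ℝ × E3 => (∫ y in O p.1 p.2, γ p.1 p.2 y) * adj w ψ p.1 p.2) (stm w I) ∧
      Integrable (fun p : ℝ × E3 => ψ p.1 p.2 *
        ∫ y in O p.1 p.2, heat w (fun t x => γ t x y) p.1 p.2) (stm w I) ∧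
      0 ≤ ∫ p, ((∫ y in O p.1 p.2, γ p.1 p.2 y) * adj w ψ p.1 p.2 + ψ p.1 p.2 *
        ((∫ y in O p.1 p.2, heat w (fun t x => γ t x y) p.1 p.2) + (c⁻¹ + C) * q p))
          ∂(stm w I) := by
  classical
  obtain ⟨B, hB⟩ := hqB
  have hI := hψJ.trans (prod_mono_left hJI)
  have hK := isCompact_trk hw hψc hI
  set K := trk w fun p : ℝ × E3 => ψ p.1 p.2
  set b := max y₀ y₁
  set g : ST × ℝ → ℝ := fun a => γ a.1.1 a.1.2 a.2
  have hU : IsOpen (J ×ˢ (univ : Set E3)) := hJ.prod isOpen_univ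
  have hg : ContDiffOn ℝ 2 g ((J ×ˢ univ) ×ˢ univ) :=
    hγ.comp (f := fun a : ST × ℝ => (a.1.1, a.1.2, a.2)) (by fun_prop)
      fun a ha => ⟨ha.1.1, trivial⟩
  have hKU : ∀ p ∈ K, p ∈ J ×ˢ (univ : Set E3) ∧ p.1 ∈ I ∧ w p.1 p.2 = 0 := fun p hp =>
    ⟨hψJ hp.1, (hI hp.1).1, hp.2⟩
  have hO : ∀ p ∈ K, IsOpen (O p.1 p.2) := fun p hp => by
    simpa [(hKU p hp).2.1] using op.preimage (f := fun y => (p.1, p.2, y)) (by fun_prop)
  choose! u hu hu1 hu2 using fun p (hp : p ∈ K) =>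
    exists_level (hO p hp) (up _ _) (le_max_left y₀ y₁) (H p hp.1 hp.2).1
  have hgc := fun p (hp : p ∈ J ×ˢ (univ : Set E3)) => cont_sec hg.continuousOn hp
  have hh := cont_heat hw hU hg hKU
  have hgs : ∀ p ∈ K, ∀ y, ContDiffAt ℝ 2 (fun a => g (a, y)) p := fun p hp y =>
    ContDiffAt.comp (f := fun a => (a, y)) p (cd_at hU hg (hKU p hp).1 y) (by fun_prop)
  have hz : ∀ p ∈ K, ∀ y, (∀ᶠ a in 𝓝 p, g (a, y) = 0) →
      heat w (fun t x => γ t x y) p.1 p.2 = 0 := fun p hp y h => by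
    obtain ⟨e₁, e₂, he⟩ := exists_fr (hw.eik _ (hKU p hp).2.1 _ hp.2).self_of_nhds
    rw [P218UO.heat_eq (F := fun a => g (a, y)) he (hgs p hp y), Lf, D2_congr h, D2_congr h, EventuallyEq.fderiv_eq h]
    simp [D2_const]
  have eG : ∀ p ∈ K, ∫ y in O p.1 p.2, γ p.1 p.2 y = ∫ y in u p..b, g (p, y) := fun p hp =>
    int_level (hO p hp).measurableSet (hu p hp).2 (hu1 p hp) fun y hy =>
      h1 _ (hKU p hp).1.1 _ _ ((le_max_right _ _).trans hy)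
  have eF : ∀ p ∈ K, ∫ y in O p.1 p.2, heat w (fun t x => γ t x y) p.1 p.2
      = ∫ y in u p..b, heat w (fun t x => γ t x y) p.1 p.2 := fun p hp =>
    int_level (hO p hp).measurableSet (hu p hp).2 (hu1 p hp) fun y hy => hz p hp y
      (mem_of_superset (hU.mem_nhds (hKU p hp).1) fun a ha =>
        h1 _ ha.1 _ _ ((le_max_right _ _).trans hy))
  have bd : ∀ f : ST × ℝ → ℝ, ContinuousOn f (K ×ˢ univ) → ∃ M, ∀ p ∈ K,
      |∫ y in u p..b, f (p, y)| ≤ M := fun f hf => by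
    obtain ⟨M, hM⟩ := (hK.prod (isCompact_Icc (a := y₀) (b := b))).exists_bound_of_continuousOn
      (hf.mono (prod_mono_right (subset_univ _)))
    refine ⟨|M| * (b - y₀), fun p hp => (intervalIntegral.norm_integral_le_of_norm_le_const
      (f := fun y => f (p, y)) (C := |M|) fun y hy => ?_).trans ?_⟩
    · rw [uIoc_of_le (hu p hp).2] at hy
      exact (hM (p, y) ⟨hp, (hu p hp).1.trans hy.1.le, hy.2⟩).trans (le_abs_self M)
    · rw [abs_of_nonneg (sub_nonneg.2 (hu p hp).2)]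
      gcongr
      exact (hu p hp).1
  obtain ⟨M₁, hM₁⟩ := bd g (hg.continuousOn.mono (prod_mono_left fun p hp => (hKU p hp).1))
  obtain ⟨M₂, hM₂⟩ := bd _ hh
  have hm : AEStronglyMeasurable (fun p : ℝ × E3 => ∫ y in O p.1 p.2,
      heat w (fun t x => γ t x y) p.1 p.2) ((stm w I).restrict K) := by
    have a1 : MeasurableSet (K ×ˢ (univ : Set ℝ) ∩ (fun a : ST × ℝ => (a.1.1, a.1.2, a.2)) ⁻¹'
        {p : ℝ × E3 × ℝ | p.1 ∈ I ∧ p.2.2 ∈ O p.1 p.2.1}) :=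
      (hK.measurableSet.prod MeasurableSet.univ).inter (op.preimage (by fun_prop)).measurableSet
    have a2 := ((hh.mono inter_subset_left).measurable_piecewise (continuousOn_const (c := 0))
      a1).stronglyMeasurable.integral_prod_right' (ν := volume)
    refine a2.aestronglyMeasurable.congr ((ae_restrict_mem hK.measurableSet).mono fun p hp => ?_)
    simp only
    rw [← integral_indicator (hO p hp).measurableSet]
    refine integral_congr_ae (Eventually.of_forall fun y => ?_)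
    by_cases hy : y ∈ O p.1 p.2 <;> simp [piecewise, hy, hp, (hKU p hp).2.1, g]
  have hnear : ∀ p ∈ K, ∀ y, (p.1, p.2, y) ∉ closure {p' : ℝ × E3 × ℝ | p'.1 ∈ J ∧
      γ p'.1 p'.2.1 p'.2.2 ≠ 0} → ∀ᶠ a : ST × ℝ in 𝓝 (p, y), g a = 0 := fun p hp y h => by
    have a1 : ContinuousAt (fun a : ST × ℝ => (a.1.1, a.1.2, a.2)) (p, y) := by fun_prop
    filter_upwards [a1.eventually (isClosed_closure.isOpen_compl.mem_nhds h),
      continuousAt_fst.eventually (hU.mem_nhds (hKU p hp).1)] with a a2 a3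
    by_contra a4
    exact a2 (subset_closure ⟨a3.1, a4⟩)
  refine And.imp_right (And.imp_left fun _ => ?_) (visc_int hC hw hψ hψc hI hψ0
    (G := fun p => ∫ y in O p.1 p.2, γ p.1 p.2 y) (F := fun p => (∫ y in O p.1 p.2,
      heat w (fun t x => γ t x y) p.1 p.2) + (c⁻¹ + C) * q p)
    (hm.add (hq.const_mul _).aestronglyMeasurable) (B := max M₁ (M₂ + (c⁻¹ + C) * B))
    (fun p hp => ⟨(eG p hp ▸ hM₁ p hp).trans (le_max_left _ _), (abs_add_le _ _).trans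
      ((add_le_add (eF p hp ▸ hM₂ p hp) (by
        rw [abs_of_nonneg (mul_nonneg (by positivity) (hB p).1)]
        exact mul_le_mul_of_nonneg_left (hB p).2 (by positivity))).trans (le_max_right _ _))⟩)
    (fun p hp y hy => ?_) fun p hp => ?_)
  · obtain ⟨M, hM⟩ := hψ.continuous.bounded_above_of_compact_support hψc
    exact (int_trk hC hw (ψ := fun p => ψ p.1 p.2) (fun p hp => by
      rw [show ψ p.1 p.2 = 0 from image_eq_zero_of_notMem_tsupport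
        (f := fun p : ℝ × E3 => ψ p.1 p.2) hp, zero_mul]) ((intOn_trk hC hw hψc hI hm
          fun p hp => eF p hp ▸ hM₂ p hp).bdd_mul hψ.continuous.aestronglyMeasurable
            (ae_of_all _ hM))).1
  · have hp' := hKU p hp
    replace hy : ∫ z in u p..b, g (p, z) < y := eG p hp ▸ hy
    have a1 : Continuous fun s => ∫ z in s..b, g (p, z) := by
      simp only [intervalIntegral.integral_symm b]
      exact (intervalIntegral.continuous_primitive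
        (fun _ _ => (hgc p hp'.1).intervalIntegrable _ _) b).neg
    obtain ⟨s, a2, a3⟩ := (((a1.continuousAt.eventually (gt_mem_nhds hy)).filter_mono
      (nhdsWithin_le_nhds (s := Iio (u p)))).and self_mem_nhdsWithin).exists
    have a4 : ∀ᶠ a : ST in 𝓝 p, ∀ z ∈ Icc y₀ s, w a.1 a.2 = 0 → z ∈ O a.1 a.2 → g (a, z) = 0 := by
      refine isCompact_Icc.eventually_forall_of_forall_eventually fun z hz => ?_
      by_cases h : (p.1, p.2, z) ∈ closure {p' : ℝ × E3 × ℝ | p'.1 ∈ J ∧ γ p'.1 p'.2.1 p'.2.2 ≠ 0}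
      · have a5 : ¬_ := fun h' => (hu1 p hp _ (by linarith [(hu p hp).2, hz.2, a3])).1
          (cl _ hp'.2.1 _ z hp.2 (((H p hp.1 hp.2).2 z hz.1).1 h) h' ((u p - s) / 2)
            (by linarith [a3])) |>.not_ge (by linarith [hz.2, a3])
        have a6 : ContinuousAt (fun a : ST × ℝ => (a.1.1, a.1.2, a.2)) (p, z) := by fun_prop
        filter_upwards [a6.eventually (not_frequently.1 a5)] with a a7 a8 a9
        exact absurd ⟨a8, a9⟩ a7
      · exact (hnear p hp z h).mono fun a a5 _ _ => a5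
    filter_upwards [mem_nhdsWithin_of_mem_nhds a4, self_mem_nhdsWithin, mem_nhdsWithin_of_mem_nhds
      ((gam_fix hU hg hp'.1 s b).1.continuousAt.eventually (gt_mem_nhds a2))] with a b1 b2 b3
    refine (eG a b2).trans_lt ((int_le (hgc a (hKU a b2).1) (h0 _ (hKU a b2).1.1 a.2)
      (fun z hz => b1 z ⟨(hu a b2).1.trans hz.1.le, hz.2⟩ b2.2 ((hu1 a b2 z ?_).2 hz.1))
        b).trans_lt b3)
    exact (hz.2.trans_lt a3).trans_le (hu p hp).2
  · have hp' := hKU p hp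
    obtain ⟨e₁, e₂, he⟩ := exists_fr (hw.eik _ hp'.2.1 _ hp.2).self_of_nhds
    obtain ⟨P, a1, a2, a3, a4, a5⟩ : ∃ P : ST → ℝ, ContDiffAt ℝ 2 P p ∧ P p = u p ∧
        (∀ᶠ a in 𝓝[K] p, ∀ z ∈ Ioc (P a) (u a), g (a, z) = 0) ∧
        2 * c * Gf e₁ e₂ P p ≤ Lf e₁ e₂ P p ∧ Real.exp (2 * u p) * Gf e₁ e₂ P p ≤ C := by
      have triv : (∀ᶠ a in 𝓝[K] p, ∀ z ∈ Ioc (u p) (u a), g (a, z) = 0) → ∃ P : ST → ℝ,
          ContDiffAt ℝ 2 P p ∧ P p = u p ∧ (∀ᶠ a in 𝓝[K] p, ∀ z ∈ Ioc (P a) (u a), g (a, z) = 0) ∧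
          2 * c * Gf e₁ e₂ P p ≤ Lf e₁ e₂ P p ∧ Real.exp (2 * u p) * Gf e₁ e₂ P p ≤ C := fun h =>
        ⟨fun _ => u p, contDiffAt_const, rfl, h, by simp [Gf, Lf, D2_const], by simpa [Gf]⟩
      rcases (hu p hp).2.eq_or_lt with b1 | b1
      · exact triv (eventually_mem_nhdsWithin.mono fun a ha z hz =>
          absurd (hz.2.trans (hu a ha).2) (b1 ▸ hz.1).not_ge)
      by_cases h : (p.1, p.2, u p) ∈ closure {p' : ℝ × E3 × ℝ | p'.1 ∈ J ∧
          γ p'.1 p'.2.1 p'.2.2 ≠ 0}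
      · obtain ⟨P, c1, c2, c3, c4⟩ := bar _ hp'.2.1 _ _ hp.2
          (((H p hp.1 hp.2).2 _ (hu p hp).1).1 h) (hu2 p hp b1) e₁ e₂ he
        refine ⟨P, c1, c2, ?_, c4⟩
        filter_upwards [mem_nhdsWithin_of_mem_nhds c3, self_mem_nhdsWithin] with a c5 ha z hz
        obtain ⟨z', c6, c7⟩ := exists_between (hz.1.trans_le hz.2)
        exact absurd ((hu1 a ha z' (c7.trans_le (hu a ha).2)).1 (c5 ha.2 c6)) c7.not_gt
      · have c1 := hnear p hp _ h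
        rw [nhds_prod_eq] at c1
        obtain ⟨V, c2, W, c3, c4⟩ := eventually_prod_iff.1 c1
        obtain ⟨s, c5, c6⟩ := (nhdsGE_basis_Icc (a := u p)).eventually_iff.1
          ((c3.and (gt_mem_nhds b1)).filter_mono nhdsWithin_le_nhds)
        have c7 : ContinuousAt (fun a : ST => (a.1, a.2, s)) p := by fun_prop
        have c8 := (c6 (right_mem_Icc.2 c5.le)).2
        refine triv ?_
        filter_upwards [mem_nhdsWithin_of_mem_nhds c2, self_mem_nhdsWithin,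
          mem_nhdsWithin_of_mem_nhds (c7.eventually (op.mem_nhds ⟨hp'.2.1, (hu1 p hp s c8).2 c5⟩))]
          with a d1 ha d2 z hz
        exact c4 d1 (c6 ⟨hz.1.le, hz.2.trans ((hu1 a ha s c8).1 d2.2).le⟩).1
    obtain ⟨b1, b2⟩ := gam hU hg hp'.1 a1 b e₁ e₂
    refine ⟨_, b1, by rw [a2, eG p hp], ?_, ?_⟩
    · filter_upwards [a3, self_mem_nhdsWithin] with a c1 ha
      exact (int_le (hgc a (hKU a ha).1) (h0 _ (hKU a ha).1.1 a.2) c1 b).trans_eq (eG a ha).symm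
    obtain ⟨-, c1, c2⟩ := (H p hp.1 hp.2).2 _ (hu p hp).1
    have c3 := cd_at hU hg hp'.1 (u p)
    have c4 : ∀ e, fderiv ℝ g (p, u p) (sp e, 0) = ⟪e, gradient (fun x => γ p.1 x (u p)) p.2⟫ :=
      fun e => by
      rw [← (slice_level c3 _).1, ← inner_grad_space (diff1 (hgs p hp _)),
        real_inner_comm]
    have c5 : deriv (γ p.1 p.2) (u p) = fderiv ℝ g (p, u p) (0, 1) :=
      ((diff1 c3).hasFDerivAt.comp_hasDerivAt (u p)
        ((hasDerivAt_const _ p).prodMk (hasDerivAt_id _))).deriv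
    have c6 : ∀ y, Lf e₁ e₂ (fun a => g (a, y)) p = heat w (fun t x => γ t x y) p.1 p.2 := fun y =>
      (P218UO.heat_eq he (hgs p hp y)).symm
    rw [P218UO.heat_eq he b1, b2, a2, eF p hp, c4, c4, ← c5]
    simp only [c6]
    rw [he.normSq] at c1
    have c7 : 0 ≤ g (p, u p) := h0 _ hp'.1.1 _ _
    have c8 := (hB p).1
    have c9 : 0 ≤ Gf e₁ e₂ P p := by unfold Gf; positivity
    change _ ≤ g (p, u p) * q p at c1
    change _ - c * g (p, u p) ≤ _ at c2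
    have d1 := mul_le_mul_of_nonneg_left a4 c7
    have d2 := mul_le_mul_of_nonneg_right c2 c9
    have d3 := mul_le_mul_of_nonneg_right a5 c8
    unfold Gf at *
    generalize ⟪e₁, gradient (fun x => γ p.1 x (u p)) p.2⟫ = α₁ at *
    generalize ⟪e₂, gradient (fun x => γ p.1 x (u p)) p.2⟫ = α₂ at *
    generalize fderiv ℝ P p (sp e₁) = β₁ at *
    generalize fderiv ℝ P p (sp e₂) = β₂ at *
    have d4 : α₁ ^ 2 + α₂ ^ 2 ≤ g (p, u p) * q p := le_trans (le_add_of_nonneg_right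
      (sq_nonneg _)) c1
    have d5 : (2 * (β₁ * α₁ + β₂ * α₂)) ^ 2
        ≤ (c * g (p, u p) * (β₁ ^ 2 + β₂ ^ 2) + c⁻¹ * q p) ^ 2 := by
      have d6 : c * g (p, u p) * (β₁ ^ 2 + β₂ ^ 2) * (c⁻¹ * q p)
          = g (p, u p) * q p * (β₁ ^ 2 + β₂ ^ 2) := by field_simp
      nlinarith [sq_nonneg (c * g (p, u p) * (β₁ ^ 2 + β₂ ^ 2) - c⁻¹ * q p),
        mul_le_mul_of_nonneg_right d4 c9, sq_nonneg (β₁ * α₂ - β₂ * α₁)]
    have d7 := (abs_le_of_sq_le_sq' d5 (by positivity)).2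
    linarith

end Vale.Agent.P218UV
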