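import Vale.Agent.P218UO.Op

/-! The heat operator applied to an integral with a moving lower limit. -/

open MeasureTheory Set Filter Topology Metric
open scoped RealInnerProductSpace ContDiff

namespace Vale.Agent.P218UV

open Vale.Agent.P218UA Vale.Agent.P218UO

variable {X : Type} [NormedAddCommGroup X] [NormedSpace ℝ X] {g : X × ℝ → ℝ} {U : Set X} {p : X}

theorem cd_at (hU : IsOpen U) (hg : ContDiffOn ℝ 2 g (U ×ˢ univ)) (hp : p ∈ U) (y : ℝ) :
    ContDiffAt ℝ 2 g (p, y) := hg.contDiffAt ((hU.prod isOpen_univ).mem_nhds ⟨hp, trivial⟩)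

theorem slice_level {y : ℝ} (hg : ContDiffAt ℝ 2 g (p, y)) (v : X) :
    fderiv ℝ (fun q => g (q, y)) p v = fderiv ℝ g (p, y) (v, 0) ∧
      D2 (fun q => g (q, y)) p v = D2 g (p, y) (v, 0) := by
  have h1 := hasFDerivAt_prodMk_left (𝕜 := ℝ) p y
  refine ⟨congrArg (fun L : X →L[ℝ] ℝ => L v) ((diff1 hg).hasFDerivAt.comp p h1).fderiv, ?_⟩
  have h2 := D2_clm (ContinuousLinearMap.inl ℝ X ℝ) (0, y) p v
  rw [D2_comp (Φ := fun q => (q, y)) hg (by fun_prop), h1.fderiv,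
    show D2 (fun q : X => (q, y)) p v = 0 by simpa using h2]
  simp

theorem int_unit (f : ℝ → ℝ) (a b : ℝ) :
    ∫ y in a..b, f y = (b - a) * ∫ τ in (0 : ℝ)..1, f ((b - a) * τ + a) := by
  rw [← smul_eq_mul, intervalIntegral.smul_integral_comp_mul_add]
  simp

theorem cont_d1 (hU : IsOpen U) (hg : ContDiffOn ℝ 2 g (U ×ˢ univ)) (v : X × ℝ) :
    ContinuousOn (fun a => fderiv ℝ g a v) (U ×ˢ univ) :=
  (hg.continuousOn_fderiv_of_isOpen (hU.prod isOpen_univ) (by norm_num)).clm_apply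
    continuousOn_const

theorem cont_d2 (hU : IsOpen U) (hg : ContDiffOn ℝ 2 g (U ×ˢ univ)) :
    ContinuousOn (fderiv ℝ (fderiv ℝ g)) (U ×ˢ univ) :=
  (hg.fderiv_of_isOpen (m := 1) (hU.prod isOpen_univ) (by norm_num)).continuousOn_fderiv_of_isOpen
    (hU.prod isOpen_univ) le_rfl

omit [NormedSpace ℝ X] in
theorem cont_sec {f : X × ℝ → ℝ} (hf : ContinuousOn f (U ×ˢ univ)) (hp : p ∈ U) :
    Continuous fun y => f (p, y) :=
  hf.comp_continuous (by fun_prop) fun _ => ⟨hp, trivial⟩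

theorem gam_fix (hU : IsOpen U) (hg : ContDiffOn ℝ 2 g (U ×ˢ univ)) (hp : p ∈ U) (a b : ℝ) :
    ContDiffAt ℝ 2 (fun q => ∫ y in a..b, g (q, y)) p ∧ ∀ v,
      fderiv ℝ (fun q => ∫ y in a..b, g (q, y)) p v = ∫ y in a..b, fderiv ℝ g (p, y) (v, 0) ∧
      D2 (fun q => ∫ y in a..b, g (q, y)) p v = ∫ y in a..b, D2 g (p, y) (v, 0) := by
  set L : X × ℝ →L[ℝ] X × ℝ := (ContinuousLinearMap.fst ℝ X ℝ).prod
    ((b - a) • ContinuousLinearMap.snd ℝ X ℝ) with hL
  have e : ∀ z : X × ℝ, (0, a) + L z = (z.1, (b - a) * z.2 + a) := fun z => by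
    simp [hL, add_comm]
  have h0 : ∀ z, HasFDerivAt (fun z => ((0, a) : X × ℝ) + L z) L z := fun z =>
    L.hasFDerivAt.const_add _
  obtain ⟨h1, h2, h3⟩ := parInt (f := fun z => g ((0, a) + L z)) (hU.prod isOpen_univ)
    (hg.comp (contDiff_const.add L.contDiff).contDiffOn fun z hz => ⟨by simpa [hL] using hz.1,
      trivial⟩) (p := p) fun _ _ => ⟨hp, trivial⟩
  have h4 : ∀ τ, ContDiffAt ℝ 2 g ((0, a) + L (p, τ)) := fun τ => e (p, τ) ▸ cd_at hU hg hp _
  have h5 : ∀ v : X, L (v, 0) = (v, 0) := fun v => by simp [hL]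
  simp only [int_unit _ a b]
  simp only [e] at h1 h2 h3
  refine ⟨contDiffAt_const.mul h1, fun v => ⟨?_, ?_⟩⟩
  · rw [fderiv_const_mul (diff1 h1), smul_apply, h2, smul_eq_mul]
    congr 2
    ext τ
    simp only [← e]
    rw [show (fun z => g ((0, a) + L z)) = g ∘ fun z => (0, a) + L z from rfl,
      ((diff1 (h4 τ)).hasFDerivAt.comp (p, τ) (h0 (p, τ))).fderiv, ContinuousLinearMap.comp_apply, h5, e]
  · rw [D2_mul contDiffAt_const h1, D2_const, fderiv_fun_const, h3]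
    simp only [zero_mul, Pi.zero_apply, zero_apply, mul_zero, zero_add]
    congr 2
    ext τ
    simp only [← e]
    rw [D2_comp (Φ := fun z => (0, a) + L z) (p := (p, τ)) (h4 τ)
      (contDiff_const.add L.contDiff).contDiffAt, D2_clm, (h0 _).fderiv, h5, e,
      map_zero, add_zero]

theorem gam_mov (hU : IsOpen U) (hg : ContDiffOn ℝ 2 g (U ×ˢ univ)) (hp : p ∈ U) {P : X → ℝ}
    (hP : ContDiffAt ℝ 2 P p) : ContDiffAt ℝ 2 (fun q => ∫ y in P p..P q, g (q, y)) p ∧ ∀ v,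
      fderiv ℝ (fun q => ∫ y in P p..P q, g (q, y)) p v = g (p, P p) * fderiv ℝ P p v ∧
      D2 (fun q => ∫ y in P p..P q, g (q, y)) p v = g (p, P p) * D2 P p v
        + 2 * (fderiv ℝ P p v * fderiv ℝ g (p, P p) (v, 0))
        + fderiv ℝ g (p, P p) (0, 1) * fderiv ℝ P p v ^ 2 := by
  obtain ⟨V, hV, hPV⟩ := hP.contDiffOn le_rfl (by simp)
  have hΦ : ContDiffOn ℝ 2 (fun z : X × ℝ => (z.1, (P z.1 - P p) * z.2 + P p))
      ((interior V ∩ U) ×ˢ univ) := contDiffOn_fst.prodMk ((((hPV.comp contDiffOn_fst fun z hz =>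
        interior_subset hz.1.1).sub contDiffOn_const).mul contDiffOn_snd).add contDiffOn_const)
  obtain ⟨h1, h2, -⟩ := parInt (f := fun z => g (z.1, (P z.1 - P p) * z.2 + P p))
    ((isOpen_interior.inter hU).prod isOpen_univ) (hg.comp hΦ fun z hz => ⟨hz.1.2, trivial⟩)
    (p := p) fun _ _ => ⟨⟨mem_interior_iff_mem_nhds.2 hV, hp⟩, trivial⟩
  have h3 : ContDiffAt ℝ 2 (fun q => P q - P p) p := hP.sub contDiffAt_const
  have h4 : ∀ v, fderiv ℝ (fun q => ∫ τ in (0 : ℝ)..1, g (q, (P q - P p) * τ + P p)) p v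
      = fderiv ℝ g (p, P p) (v, 0) + fderiv ℝ g (p, P p) (0, 1) * fderiv ℝ P p v / 2 := by
    intro v
    have h5 : ∀ τ : ℝ, fderiv ℝ (fun z : X × ℝ => g (z.1, (P z.1 - P p) * z.2 + P p)) (p, τ) (v, 0)
        = fderiv ℝ g (p, P p) (v, 0) + fderiv ℝ g (p, P p) (0, 1) * fderiv ℝ P p v * τ := by
      intro τ
      have a1 : HasFDerivAt (fun z : X × ℝ => P z.1) _ (p, τ) :=
        (diff1 hP).hasFDerivAt.comp (p, τ) hasFDerivAt_fst
      have a2 := hasFDerivAt_fst.prodMk (((a1.sub_const (P p)).mul hasFDerivAt_snd).add_const (P p))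
      have a3 : HasFDerivAt g (fderiv ℝ g (p, P p)) (p, (P p - P p) * τ + P p) := by
        simpa using (diff1 (cd_at hU hg hp (P p))).hasFDerivAt
      have a4 : HasFDerivAt (fun z : X × ℝ => g (z.1, (P z.1 - P p) * z.2 + P p)) _ (p, τ) :=
        HasFDerivAt.comp (p, τ) a3 a2
      have a5 : ((v, τ * fderiv ℝ P p v) : X × ℝ) = (v, 0) + (τ * fderiv ℝ P p v) • (0, 1) := by
        simp
      rw [a4.fderiv]
      simp only [ContinuousLinearMap.comp_apply, ContinuousLinearMap.prod_apply, sub_self,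
        ContinuousLinearMap.coe_fst', smul_apply, zero_smul, zero_add, smul_eq_mul, a5,
        map_add, map_smul]
      ring
    rw [h2]
    simp only [h5]
    rw [intervalIntegral.integral_add (by simp) (Continuous.intervalIntegrable (by fun_prop) _ _),
      intervalIntegral.integral_const_mul, integral_id]
    simp
    ring
  simp only [int_unit _ (P p)]
  refine ⟨h3.mul h1, fun v => ⟨?_, ?_⟩⟩
  · rw [fderiv_fun_mul (diff1 h3) (diff1 h1), fderiv_sub_const]
    simp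
  · rw [D2_mul h3 h1, D2_sub hP contDiffAt_const, D2_const, fderiv_sub_const, h4]
    simp
    ring

/-- the chain rule for an integral with a moving lower limit -/
theorem gam {g : ST × ℝ → ℝ} {U : Set ST} {p : ST} (hU : IsOpen U)
    (hg : ContDiffOn ℝ 2 g (U ×ˢ univ)) (hp : p ∈ U) {P : ST → ℝ} (hP : ContDiffAt ℝ 2 P p)
    (b : ℝ) (e₁ e₂ : E3) : ContDiffAt ℝ 2 (fun q => ∫ y in P q..b, g (q, y)) p ∧
      Lf e₁ e₂ (fun q => ∫ y in P q..b, g (q, y)) p
        = (∫ y in P p..b, Lf e₁ e₂ (fun q => g (q, y)) p) - g (p, P p) * Lf e₁ e₂ P p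
          + 2 * (fderiv ℝ P p (sp e₁) * fderiv ℝ g (p, P p) (sp e₁, 0)
            + fderiv ℝ P p (sp e₂) * fderiv ℝ g (p, P p) (sp e₂, 0))
          + fderiv ℝ g (p, P p) (0, 1) * Gf e₁ e₂ P p := by
  obtain ⟨h1, h2⟩ := gam_fix hU hg hp (P p) b
  obtain ⟨h3, h4⟩ := gam_mov hU hg hp hP
  have e : (fun q => ∫ y in P q..b, g (q, y)) =ᶠ[𝓝 p]
      fun q => (∫ y in P p..b, g (q, y)) - ∫ y in P p..P q, g (q, y) := by
    filter_upwards [hU.mem_nhds hp] with q hq
    have := cont_sec hg.continuousOn hq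
    rw [intervalIntegral.integral_interval_sub_left (this.intervalIntegrable _ _)
      (this.intervalIntegrable _ _)]
  refine ⟨(h1.sub h3).congr_of_eventuallyEq e, ?_⟩
  have i1 := fun v => (cont_sec (cont_d1 hU hg (v, 0)) hp).intervalIntegrable (μ := volume) (P p) b
  have i2 : ∀ v, IntervalIntegrable (fun y => D2 g (p, y) (v, 0)) volume (P p) b := fun v =>
    (cont_sec (((cont_d2 hU hg).clm_apply continuousOn_const).clm_apply continuousOn_const)
      hp).intervalIntegrable _ _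
  simp only [Lf, Gf, D2_congr e, e.fderiv_eq, D2_sub h1 h3, fderiv_fun_sub (diff1 h1) (diff1 h3),
    sub_apply, (h2 _).1, (h2 _).2, (h4 _).1, (h4 _).2, (slice_level (cd_at hU hg hp _) _).1,
    (slice_level (cd_at hU hg hp _) _).2]
  rw [intervalIntegral.integral_sub (i1 _) ((i2 _).add (i2 _)),
    intervalIntegral.integral_add (i2 _) (i2 _)]
  ring

end Vale.Agent.P218UV
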