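import Mathlib.Analysis.Calculus.BumpFunction.FiniteDimension
import Mathlib.Analysis.SpecialFunctions.ExpDeriv
import Mathlib.Analysis.SpecialFunctions.Log.Deriv
import Mathlib.Topology.Semicontinuity.Basic

/-! Smooth approximation of a function which has smooth barriers from below. -/

open Set Filter Topology Metric

namespace Vale.Agent.P218UV

variable {X : Type*} [NormedAddCommGroup X] [NormedSpace ℝ X] {ι : Type*} [Fintype ι]

/-- a degenerate parabolic operator -/
noncomputable def Lop (v : X) (σ : ι → X → X) (g : X → ℝ) (p : X) : ℝ :=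
  fderiv ℝ g p v - ∑ i, fderiv ℝ (fderiv ℝ g) p (σ i p) (σ i p)

theorem hasFDerivAt_fderiv_apply {g : X → ℝ} {p : X} (hg : ContDiffAt ℝ 2 g p) (u : X) :
    HasFDerivAt (fun q => fderiv ℝ g q u) ((fderiv ℝ (fderiv ℝ g) p).flip u) p := by
  have h1 : DifferentiableAt ℝ (fderiv ℝ g) p :=
    (hg.fderiv_right (m := 1) (by norm_num)).differentiableAt (by simp)
  have := h1.hasFDerivAt.clm_apply (hasFDerivAt_const u p)
  simpa using this

theorem dd_eq {g : X → ℝ} {p : X} (hg : ContDiffAt ℝ 2 g p) (u : X) :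
    fderiv ℝ (fderiv ℝ g) p u u = fderiv ℝ (fun q => fderiv ℝ g q u) p u := by
  rw [(hasFDerivAt_fderiv_apply hg u).fderiv]; rfl

section softmax

variable {κ : Type*} (s : Finset κ) (g : κ → X → ℝ) (β : ℝ)

/-- the sum of the exponentials -/
noncomputable def sexp (p : X) : ℝ := ∑ j ∈ s, Real.exp (β * g j p)

/-- the smooth maximum -/
noncomputable def smax (p : X) : ℝ := Real.log (sexp s g β p) / β

variable {s g β}

omit [NormedAddCommGroup X] [NormedSpace ℝ X] in
theorem sexp_pos (hs : s.Nonempty) (p : X) : 0 < sexp s g β p :=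
  Finset.sum_pos (fun _ _ => Real.exp_pos _) hs

theorem contDiff_sexp (hg : ∀ j ∈ s, ContDiff ℝ 2 (g j)) : ContDiff ℝ 2 (sexp s g β) :=
  ContDiff.sum fun j hj => (contDiff_const.mul (hg j hj)).exp

theorem contDiff_smax (hs : s.Nonempty) (hg : ∀ j ∈ s, ContDiff ℝ 2 (g j)) :
    ContDiff ℝ 2 (smax s g β) :=
  ((contDiff_sexp hg).log fun p => (sexp_pos hs p).ne').div_const β

theorem hasFDerivAt_sexp (hg : ∀ j ∈ s, ContDiff ℝ 2 (g j)) (p : X) :
    HasFDerivAt (sexp s g β) (∑ j ∈ s, (Real.exp (β * g j p) * β) • fderiv ℝ (g j) p) p := by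
  unfold sexp
  refine HasFDerivAt.fun_sum fun j hj => ?_
  have := (((hg j hj).differentiable (by simp) p).hasFDerivAt.const_mul β).exp
  simpa [smul_smul] using this

theorem fderiv_smax (hs : s.Nonempty) (hg : ∀ j ∈ s, ContDiff ℝ 2 (g j)) (hβ : 0 < β) (p u : X) :
    fderiv ℝ (smax s g β) p u
      = (∑ j ∈ s, Real.exp (β * g j p) * fderiv ℝ (g j) p u) / sexp s g β p := by
  have h := ((hasFDerivAt_sexp (β := β) hg p).log (sexp_pos hs p).ne').mul_const β⁻¹
  have e : smax s g β = fun q => Real.log (sexp s g β q) * β⁻¹ := by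
    funext q; simp [smax, div_eq_mul_inv]
  rw [e, h.fderiv]
  have hS := (sexp_pos (g := g) (β := β) hs p).ne'
  simp only [smul_apply, sum_apply, smul_eq_mul]
  rw [Finset.sum_div, Finset.mul_sum, Finset.mul_sum]
  refine Finset.sum_congr rfl fun j _ => ?_
  field_simp

theorem dd_smax (hs : s.Nonempty) (hg : ∀ j ∈ s, ContDiff ℝ 2 (g j)) (hβ : 0 < β) (p u : X) :
    (∑ j ∈ s, Real.exp (β * g j p) * fderiv ℝ (fderiv ℝ (g j)) p u u) / sexp s g β p
      ≤ fderiv ℝ (fderiv ℝ (smax s g β)) p u u := by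
  rw [dd_eq (contDiff_smax hs hg).contDiffAt]
  have e : (fun q => fderiv ℝ (smax s g β) q u) = fun q =>
      (∑ j ∈ s, Real.exp (β * g j q) * fderiv ℝ (g j) q u) * (sexp s g β q)⁻¹ := by
    funext q; rw [fderiv_smax hs hg hβ, div_eq_mul_inv]
  have hS := sexp_pos (g := g) (β := β) hs p
  have hN : HasFDerivAt (fun q => ∑ j ∈ s, Real.exp (β * g j q) * fderiv ℝ (g j) q u)
      (∑ j ∈ s, (Real.exp (β * g j p) • (fderiv ℝ (fderiv ℝ (g j)) p).flip u
        + fderiv ℝ (g j) p u • ((Real.exp (β * g j p) * β) • fderiv ℝ (g j) p))) p := by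
    refine HasFDerivAt.fun_sum fun j hj => ?_
    have h1 := (((hg j hj).differentiable (by simp) p).hasFDerivAt.const_mul β).exp
    have := h1.fun_mul (hasFDerivAt_fderiv_apply (hg j hj).contDiffAt u)
    simpa [smul_smul] using this
  have hI := (hasFDerivAt_inv' (𝕜 := ℝ) hS.ne').comp p (hasFDerivAt_sexp (β := β) hg p)
  have h := hN.fun_mul hI
  rw [e]
  erw [h.fderiv]
  simp only [add_apply, smul_apply, sum_apply, smul_eq_mul, ContinuousLinearMap.comp_apply,
    ContinuousLinearMap.flip_apply, neg_apply, ContinuousLinearMap.mulLeftRight_apply,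
    Function.comp_apply, Finset.sum_add_distrib]
  set S := sexp s g β p with hSdef
  set E : κ → ℝ := fun j => Real.exp (β * g j p) with hE
  set a : κ → ℝ := fun j => fderiv ℝ (g j) p u with ha
  set N := ∑ j ∈ s, E j * a j with hNdef
  have e1 : ∑ j ∈ s, E j * β * a j = β * N := by
    rw [hNdef, Finset.mul_sum]; exact Finset.sum_congr rfl fun j _ => by ring
  have e2 : ∑ j ∈ s, a j * (E j * β * a j) = β * ∑ j ∈ s, E j * a j ^ 2 := by
    rw [Finset.mul_sum]; exact Finset.sum_congr rfl fun j _ => by ring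
  have e3 : 0 ≤ ∑ j ∈ s, E j * (a j - N / S) ^ 2 :=
    Finset.sum_nonneg fun j _ => mul_nonneg (Real.exp_pos _).le (sq_nonneg _)
  have e4 : ∑ j ∈ s, E j * (a j - N / S) ^ 2 = ∑ j ∈ s, E j * a j ^ 2 - N ^ 2 / S := by
    have : ∀ j ∈ s, E j * (a j - N / S) ^ 2
        = E j * a j ^ 2 - 2 * (N / S) * (E j * a j) + (N / S) ^ 2 * E j := fun j _ => by ring
    rw [Finset.sum_congr rfl this, Finset.sum_add_distrib, Finset.sum_sub_distrib,
      ← Finset.mul_sum, ← Finset.mul_sum]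
    have : ∑ j ∈ s, E j = S := rfl
    rw [this, ← hNdef]
    field_simp
    ring
  change _ ≤ N * -(S⁻¹ * (∑ j ∈ s, E j * β * a j) * S⁻¹)
    + S⁻¹ * (_ + ∑ j ∈ s, a j * (E j * β * a j))
  rw [e1, e2]
  rw [e4] at e3
  have e5 : N * -(S⁻¹ * (β * N) * S⁻¹) + S⁻¹ * (β * ∑ j ∈ s, E j * a j ^ 2)
      = S⁻¹ * β * (∑ j ∈ s, E j * a j ^ 2 - N ^ 2 / S) := by
    field_simp
    ring
  have e6 : 0 ≤ S⁻¹ * β * (∑ j ∈ s, E j * a j ^ 2 - N ^ 2 / S) := by positivity
  rw [div_eq_inv_mul, mul_add]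
  linarith

theorem Lop_smax (hs : s.Nonempty) (hg : ∀ j ∈ s, ContDiff ℝ 2 (g j)) (hβ : 0 < β) (v : X)
    (σ : ι → X → X) (p : X) :
    Lop v σ (smax s g β) p ≤ (∑ j ∈ s, Real.exp (β * g j p) * Lop v σ (g j) p) / sexp s g β p := by
  unfold Lop
  rw [fderiv_smax hs hg hβ]
  have h := Finset.sum_le_sum fun i (_ : i ∈ Finset.univ) => dd_smax hs hg hβ p (σ i p)
  simp only [mul_sub, Finset.sum_sub_distrib, sub_div, Finset.mul_sum]
  rw [Finset.sum_comm, Finset.sum_div] 
  simp only [Finset.sum_div] at h ⊢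
  linarith

omit [NormedAddCommGroup X] [NormedSpace ℝ X] in
theorem le_smax (hβ : 0 < β) {j : κ} (hj : j ∈ s) (p : X) : g j p ≤ smax s g β p := by
  unfold smax
  rw [le_div_iff₀ hβ, Real.le_log_iff_exp_le (sexp_pos ⟨j, hj⟩ p), mul_comm]
  exact Finset.single_le_sum (f := fun j => Real.exp (β * g j p))
    (fun _ _ => (Real.exp_pos _).le) hj

omit [NormedAddCommGroup X] [NormedSpace ℝ X] in
theorem smax_le (hs : s.Nonempty) (hβ : 0 < β) {p : X} {M : ℝ} (h : ∀ j ∈ s, g j p ≤ M) :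
    smax s g β p ≤ M + s.card / β := by
  unfold smax
  have h1 : sexp s g β p ≤ s.card * Real.exp (β * M) := by
    have := Finset.sum_le_card_nsmul s (fun j => Real.exp (β * g j p)) (Real.exp (β * M))
      fun j hj => Real.exp_le_exp.2 (mul_le_mul_of_nonneg_left (h j hj) hβ.le)
    simpa [sexp] using this
  have hc : (0 : ℝ) < s.card := by exact_mod_cast hs.card_pos
  have h2 := Real.log_le_log (sexp_pos hs p) h1
  rw [Real.log_mul hc.ne' (Real.exp_pos _).ne', Real.log_exp] at h2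
  have h3 := Real.log_le_self hc.le
  rw [div_le_iff₀ hβ, add_mul, div_mul_cancel₀ _ hβ.ne']
  linarith

end softmax

theorem Lop_congr {v : X} {σ : ι → X → X} {g g' : X → ℝ} {p : X} (h : g =ᶠ[𝓝 p] g') :
    Lop v σ g p = Lop v σ g' p := by
  unfold Lop
  rw [h.fderiv_eq, h.fderiv.fderiv_eq]

theorem Lop_add_mul {v : X} {σ : ι → X → X} {g g' : X → ℝ} {p : X} (hg : ContDiffAt ℝ 2 g p)
    (hg' : ContDiffAt ℝ 2 g' p) (c d : ℝ) :
    Lop v σ (fun q => g q + c * g' q + d) p = Lop v σ g p + c * Lop v σ g' p := by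
  have h1 : ∀ᶠ q in 𝓝 p, fderiv ℝ (fun q => g q + c * g' q + d) q
      = fderiv ℝ g q + c • fderiv ℝ g' q := by
    filter_upwards [hg.eventually (by simp), hg'.eventually (by simp)] with q h h'
    exact ((((h.differentiableAt (by simp)).hasFDerivAt).fun_add
      ((h'.differentiableAt (by simp)).hasFDerivAt.const_mul c)).add_const d).fderiv
  have h2 : fderiv ℝ (fderiv ℝ (fun q => g q + c * g' q + d)) p
      = fderiv ℝ (fderiv ℝ g) p + c • fderiv ℝ (fderiv ℝ g') p := by
    rw [Filter.EventuallyEq.fderiv_eq h1]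
    exact ((((hg.fderiv_right (m := 1) (by norm_num)).differentiableAt (by simp)).hasFDerivAt).fun_add
      (((hg'.fderiv_right (m := 1) (by norm_num)).differentiableAt
        (by simp)).hasFDerivAt.fun_const_smul c)).fderiv
  unfold Lop
  rw [h1.self_of_nhds, h2]
  simp only [add_apply, smul_apply, smul_eq_mul, Finset.sum_add_distrib, ← Finset.mul_sum]
  ring

theorem continuousWithinAt_Lop {v : X} {σ : ι → X → X} {g : X → ℝ} {K : Set X} {p : X}
    (hg : ContDiffAt ℝ 2 g p) (hσ : ∀ i, ContinuousWithinAt (σ i) K p) :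
    ContinuousWithinAt (Lop v σ g) K p := by
  have h1 : ContDiffAt ℝ 1 (fderiv ℝ g) p := hg.fderiv_right (m := 1) (by norm_num)
  have h2 : ContinuousAt (fderiv ℝ (fderiv ℝ g)) p :=
    (h1.fderiv_right (m := 0) (by norm_num)).continuousAt
  refine (h1.continuousAt.continuousWithinAt.clm_apply continuousWithinAt_const).sub ?_
  exact tendsto_finsetSum _ fun i _ =>
    (h2.continuousWithinAt.clm_apply (hσ i)).clm_apply (hσ i)

end Vale.Agent.P218UV
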